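import Vale.Agent.P151.Lat

/-! The chain lemma: passing from one target to the next through seeds and gluing. -/

set_option linter.unusedSectionVars false

namespace Vale.Agent.P151

open Finset

variable {D : ℕ}

theorem entry {V : Type*} [DecidableEq V] {ω : Finset (Sym2 V)} {B : Set V} {o t : V}
    (ho : o ∉ B) (h : conn ω o t) (ht : t ∈ B) : ∃ z ∈ B, conn (del ω (ins B)) o z := by
  have : (∃ z ∈ B, conn (del ω (ins B)) o z) ∨ (t ∉ B ∧ conn (del ω (ins B)) o t) := by
    clear ht
    induction h with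
    | refl => exact Or.inr ⟨ho, conn_refl _ _⟩
    | @tail u v _ h2 ih =>
      rcases ih with ih | ⟨h3, h4⟩
      · exact Or.inl ih
      · have h5 := h4.trans (conn_edge (mem_del.2 ⟨h2, fun c => h3 (mk_mem_ins.1 c).1⟩))
        by_cases c : v ∈ B
        · exact Or.inl ⟨v, c, h5⟩
        · exact Or.inr ⟨c, h5⟩
  exact this.resolve_right fun h => h.1 ht

theorem entry_bd {ω : Finset (Sym2 (Pt D))} (hL : Lat ω) {c w o z : Pt D}
    (ho : o ∉ box c w) (h : conn (del ω (ins (box c w))) o z) (hz : z ∈ box c w) :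
    z ∉ box c (fun i => w i - 1) := by
  intro hz'
  rcases Relation.ReflTransGen.cases_tail h with rfl | ⟨u, _, h2⟩
  · exact ho hz
  · have h3 := mem_del.1 h2
    refine h3.2 (mk_mem_ins.2 ⟨fun k => ?_, hz⟩)
    have a1 := hz' k
    have a2 := (hL _ _ h3.1).le k
    dsimp only at a1
    rw [abs_le] at *; omega

open Classical in
noncomputable def Nf (c w o : Pt D) (ξ : Finset (Sym2 (Pt D))) : Finset (Pt D) :=
  (boxF c w).filter fun z => conn ξ o z

theorem mem_Nf {c w o z : Pt D} {ξ : Finset (Sym2 (Pt D))} :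
    z ∈ Nf c w o ξ ↔ z ∈ box c w ∧ conn ξ o z := by
  simp [Nf, mem_boxF]

theorem card_touch {F : Finset (Sym2 (Pt D))} (hL : Lat F) (N : Finset (Pt D)) :
    (keep F (touch (N : Set (Pt D)))).card ≤ 2 * D * N.card := by
  have : keep F (touch (N : Set (Pt D))) ⊆ (N ×ˢ (univ : Finset (Fin D × ℤˣ))).image
      fun a => s(a.1, Function.update a.1 a.2.1 (a.1 a.2.1 + a.2.2)) := by
    intro e he
    obtain ⟨h1, v, hv, h2⟩ := mem_keep.1 he
    obtain ⟨u, rfl⟩ := Sym2.mem_iff_exists.1 h2
    obtain ⟨i, h3, h4⟩ := hL _ _ h1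
    refine mem_image.2 ⟨(v, i, if v i < u i then 1 else -1), by simpa using hv, ?_⟩
    congr 1
    funext k
    by_cases hk : k = i
    · rw [hk, Function.update_self]
      rcases abs_eq (a := v i - u i) (b := 1) (by norm_num) |>.1 h4 with h | h
      · rw [if_neg (by omega)]; simp; omega
      · rw [if_pos (by omega)]; simp; omega
    · rw [Function.update_of_ne hk]; exact h3 k hk
  refine (card_le_card this).trans (card_image_le.trans (le_of_eq ?_))
  simp [Fintype.card_units_int]
  ring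

/-- few entry points at some shell are unlikely -/
theorem shell {F : Finset (Sym2 (Pt D))} (hL : Lat F) {q : Sym2 (Pt D) → ℝ} (hq : P01 q) {p : ℝ}
    (hp0 : 0 ≤ p) (hp1 : p < 1) (c w o : Pt D) (r : ℤ) (K M : ℕ) (hK : 0 < K)
    (ho : o ∉ box c (fun i => w i + (r + K)))
    (hF : Fresh F q p (box c (fun i => w i + (r + K)))) :
    ∃ j : ℤ, r < j ∧ j ≤ r + K ∧
      Ex F q (fun ω => ind ((Nf c (fun i => w i + j) o (del ω (ins (box c fun i => w i + j)))).Nonempty ∧
        (Nf c (fun i => w i + j) o (del ω (ins (box c fun i => w i + j)))).card ≤ M)) ≤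
        1 / ((1 - p) ^ (2 * D * M) * K) := by
  set R : ℕ → Finset (Sym2 (Pt D)) → Prop := fun j ω => ∃ z ∈ box c (fun i => w i + (r + j)), conn ω o z
  set b : ℕ → ℝ := fun j => Ex F q (fun ω => ind ((Nf c (fun i => w i + (r + (j + 1 : ℕ))) o
    (del ω (ins (box c fun i => w i + (r + (j + 1 : ℕ)))))).Nonempty ∧
    (Nf c (fun i => w i + (r + (j + 1 : ℕ))) o
      (del ω (ins (box c fun i => w i + (r + (j + 1 : ℕ)))))).card ≤ M)) with hb
  have hc : 0 < (1 - p) ^ (2 * D * M) := pow_pos (by linarith) _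
  have key : ∀ j < K, (1 - p) ^ (2 * D * M) * b j ≤
      Ex F q (fun ω => ind (R (j + 1) ω) - ind (R j ω)) := by
    intro j hj
    set w' : Pt D := fun i => w i + (r + (j + 1 : ℕ)) with hw'
    have hsub : box c w' ⊆ box c (fun i => w i + (r + K)) := fun x hx i =>
      (hx i).trans (by simp only [hw']; omega)
    have h1 := indep2 q (ins (box c w')) F (fun a ξ => ind ((Nf c w' o ξ).Nonempty ∧
      (Nf c w' o ξ).card ≤ M) *
        ind (Disjoint (keep (keep F (touch (Nf c w' o ξ : Set (Pt D)))) (ins (box c w'))) a))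
    rw [Ex_comm] at h1
    refine le_trans ?_ (le_trans h1.ge (Ex_mono hq fun ω hω => ?_))
    · rw [hb]
      dsimp only
      rw [← Ex_mul_left]
      refine Ex_mono hq fun ω _ => ?_
      rw [Ex_mul_left, mul_comm]
      by_cases c1 : (Nf c w' o (del ω (ins (box c w')))).Nonempty ∧
        (Nf c w' o (del ω (ins (box c w')))).card ≤ M
      · rw [ind_pos c1, one_mul, one_mul]
        set A := keep (keep F (touch (Nf c w' o (del ω (ins (box c w'))) : Set (Pt D))))
          (ins (box c w')) with hA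
        have e1 : ∀ η : Finset (Sym2 (Pt D)),
            ind (Disjoint A (keep η (ins (box c w')))) = ind (Disjoint A η) := by
          intro η
          refine ind_congr ⟨fun h => disjoint_left.2 fun e he he' =>
            disjoint_left.1 h he (mem_keep.2 ⟨he', (mem_keep.1 he).2⟩),
            fun h => h.mono_right (keep_subset _ _)⟩
        simp only [e1]
        rw [Ex_none q F A ((keep_subset _ _).trans (keep_subset _ _)),
          prod_congr rfl (g := fun _ => 1 - p), prod_const]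
        · refine pow_le_pow_of_le_one (by linarith) (by linarith) ?_
          exact (card_le_card (keep_subset _ _)).trans
            ((card_touch hL _).trans (Nat.mul_le_mul_left _ c1.2))
        · intro e he
          induction e using Sym2.ind with
          | h x y =>
            have h2 := mem_keep.1 he
            have h3 := mk_mem_ins.1 h2.2
            rw [(hF _ (hsub h3.1) _ (hsub h3.2) (hL _ _ (mem_keep.1 h2.1).1)).2]
      · rw [ind_neg c1, zero_mul, zero_mul]
    · have mono : ind (R j ω) ≤ ind (R (j + 1) ω) := ind_mono fun ⟨z, hz, h⟩ =>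
        ⟨z, fun i => (hz i).trans (by push_cast; omega), h⟩
      rw [← ind_and]
      by_cases c1 : ((Nf c w' o (del ω (ins (box c w')))).Nonempty ∧
        (Nf c w' o (del ω (ins (box c w')))).card ≤ M) ∧ Disjoint (keep (keep F
          (touch (Nf c w' o (del ω (ins (box c w'))) : Set (Pt D)))) (ins (box c w')))
          (keep ω (ins (box c w')))
      · have h2 : ∀ v, conn ω o v → conn (del ω (ins (box c w'))) o v := by
          intro v hv
          induction hv with
          | refl => exact conn_refl _ _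
          | @tail u v _ h2 ih =>
            refine ih.trans (conn_edge (mem_del.2 ⟨h2, fun h3 => ?_⟩))
            exact disjoint_left.1 c1.2 (mem_keep.2 ⟨mem_keep.2 ⟨hω h2, u,
              mem_coe.2 (mem_Nf.2 ⟨(mk_mem_ins.1 h3).1, ih⟩), by simp⟩, h3⟩) (mem_keep.2 ⟨h2, h3⟩)
        obtain ⟨z, hz⟩ := c1.1.1
        rw [ind_pos c1, ind_pos (P := R (j + 1) ω)
          ⟨z, (mem_Nf.1 hz).1, (mem_Nf.1 hz).2.mono (del_subset _ _)⟩, ind_neg, sub_zero]
        rintro ⟨y, hy, h3⟩
        refine entry_bd (hL.mono hω) (fun h => ho (hsub h)) (h2 y h3)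
          (fun i => (hy i).trans (by simp only [hw']; push_cast; omega))
          (fun i => (hy i).trans (by simp only [hw']; push_cast; omega))
      · rw [ind_neg c1]; linarith
  have tot : ∑ j ∈ range K, (1 - p) ^ (2 * D * M) * b j ≤ 1 := by
    refine (sum_le_sum fun j hj => key j (mem_range.1 hj)).trans ?_
    rw [← Ex_sum]
    refine Ex_le_const hq fun ω _ => ?_
    rw [sum_range_sub (fun j => ind (R j ω))]
    linarith [ind_le_one (R K ω), ind_nonneg (R 0 ω)]
  have : ∃ j ∈ range K, (1 - p) ^ (2 * D * M) * b j ≤ 1 / K := by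
    refine exists_le_of_sum_le (nonempty_range_iff.2 hK.ne') (tot.trans (le_of_eq ?_))
    rw [sum_const, card_range, nsmul_eq_mul]
    field_simp
  obtain ⟨j, hj, h⟩ := this
  refine ⟨r + (j + 1 : ℕ), by omega, by have := mem_range.1 hj; omega, ?_⟩
  have hK' : (0 : ℝ) < K := by exact_mod_cast hK
  rw [le_div_iff₀ hK'] at h
  rw [le_div_iff₀ (mul_pos hc hK')]
  linarith

theorem Ex_prod_all {ι α : Type*} [DecidableEq ι] (p : ι → ℝ) (F : Finset ι) (S : α → Finset ι)
    (A : Finset α) (hS : ∀ a ∈ A, S a ⊆ F) (hd : ∀ a ∈ A, ∀ b ∈ A, a ≠ b → Disjoint (S a) (S b)) :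
    Ex F p (fun η => ∏ a ∈ A, (1 - ind (S a ⊆ η))) = ∏ a ∈ A, (1 - ∏ i ∈ S a, p i) := by
  classical
  induction A using Finset.induction_on with
  | empty => simp
  | insert a A h ih =>
    simp only [prod_insert h]
    have h1 := indep p (S a : Set ι) F (fun η => 1 - ind (S a ⊆ η))
      (fun η => ∏ b ∈ A, (1 - ind (S b ⊆ η)))
    have e1 : ∀ η : Finset ι, ind (S a ⊆ keep η (S a : Set ι)) = ind (S a ⊆ η) := fun η =>
      ind_congr ⟨fun h => h.trans (keep_subset _ _), fun h x hx => by simp [h hx, hx]⟩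
    have e2 : ∀ η : Finset ι, ∏ b ∈ A, (1 - ind (S b ⊆ del η (S a : Set ι))) =
        ∏ b ∈ A, (1 - ind (S b ⊆ η)) := fun η => prod_congr rfl fun b hb => by
      congr 1
      refine ind_congr ⟨fun h => h.trans (del_subset _ _), fun h' x hx => mem_del.2 ⟨h' hx, ?_⟩⟩
      exact disjoint_left.1 (hd b (mem_insert_of_mem hb) a (mem_insert_self _ _)
        (fun c => h (c ▸ hb))) hx
    simp only [e1, e2] at h1
    rw [h1, ih (fun b hb => hS b (mem_insert_of_mem hb))
      (fun b hb b' hb' => hd b (mem_insert_of_mem hb) b' (mem_insert_of_mem hb')), Ex_sub,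
      Ex_const, Ex_all p F _ (hS a (mem_insert_self _ _))]

theorem exists_far (N : Finset (Pt D)) (g M' : ℕ) (hg : 0 < g) (h : g ^ D * M' < N.card) :
    ∃ N' ⊆ N, N'.card = M' ∧ ∀ z ∈ N', ∀ z' ∈ N', z ≠ z' → ∃ k, (g : ℤ) ≤ |z k - z' k| := by
  have : NeZero g := ⟨hg.ne'⟩
  obtain ⟨y, _, hy⟩ := exists_lt_card_fiber_of_mul_lt_card_of_maps_to (s := N)
    (t := (univ : Finset (Fin D → ZMod g))) (f := fun z k => (z k : ZMod g)) (n := M')
    (fun _ _ => mem_univ _) (by simpa using h)
  obtain ⟨N', h1, h2⟩ := exists_subset_card_eq hy.le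
  refine ⟨N', h1.trans (filter_subset _ _), h2, fun z hz z' hz' hne => ?_⟩
  obtain ⟨k, hk⟩ := Function.ne_iff.1 hne
  have e := congrFun (((mem_filter.1 (h1 hz)).2).trans (mem_filter.1 (h1 hz')).2.symm) k
  have := (ZMod.intCast_eq_intCast_iff_dvd_sub _ _ _).1 e
  refine ⟨k, ?_⟩
  rw [abs_sub_comm]
  exact Int.le_of_dvd (abs_pos.2 (by omega)) ((dvd_abs _ _).2 this)

/-- clamp -/
def clamp (c w z : Pt D) : Pt D := fun i => max (c i - w i) (min (c i + w i) (z i))

theorem chain0 {F : Finset (Sym2 (Pt D))} (hL : Lat F) {q : Sym2 (Pt D) → ℝ} (hq : P01 q) {p : ℝ}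
    (hp0 : 0 ≤ p) (hp1 : p < 1) (c w o : Pt D) (hw : ∀ i, 0 ≤ w i) (r : ℕ) (n : ℤ) (hrn : r ≤ n)
    (K M' : ℕ) (hK : 0 < K) {δ : ℝ} (hδ : 0 < δ) (T : Set (Pt D))
    (ho : o ∉ box c (fun i => w i + (n + K)))
    (hF : Fresh F q p (box c (fun i => w i + (n + K))))
    (hT : ∀ x ∈ box c (fun i => w i + K), lf p (cubeF x n) (cube x r) T ≤ δ ^ 2) :
    Ex F q (fun ω => ind (link ω {o} (box c w) ∧ ¬ link ω {o} T)) ≤
      1 / ((1 - p) ^ (2 * D * ((4 * r + 1) ^ D * M')) * K) +
        (1 - p ^ (EF (cubeF (0 : Pt D) r)).card) ^ M' +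
        M' * p ^ (EF (cubeF (0 : Pt D) r)).card * δ + δ := by
  classical
  have hsub0 : box c (fun i => w i + (r + K)) ⊆ box c (fun i => w i + (n + K)) := fun x hx i =>
    (hx i).trans (by dsimp only; omega)
  obtain ⟨j, hj1, hj2, hj⟩ := shell hL hq hp0 hp1 c w o r K ((4 * r + 1) ^ D * M') hK
    (fun h => ho (hsub0 h)) (hF.mono hsub0)
  set w' : Pt D := fun i => w i + j with hw'
  set η0 := p ^ (EF (cubeF (0 : Pt D) r)).card with hη0
  set M := (4 * r + 1) ^ D * M' with hM
  have hsub : box c w' ⊆ box c (fun i => w i + (n + K)) := fun x hx i =>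
    (hx i).trans (by simp only [hw']; omega)
  set U := ins (box c w') with hU
  set bad : Pt D → Finset (Sym2 (Pt D)) → ℝ := fun z η =>
    Ex F (upd q U η) (fun ω => ind (¬ link ω {z} T)) with hbad
  set A : Finset (Sym2 (Pt D)) → Finset (Pt D) := fun η =>
    (boxF c w').filter fun z => bad z η ≤ δ with hA
  have h4 : Ex F q (fun ω => ind (∀ t ∈ T, t ∉ cl ω {o}) * ind (o ∈ cl ω (A (keep ω U)))) ≤ δ := by
    rw [tower q U F (fun η ω => ind (∀ t ∈ T, t ∉ cl ω {o}) * ind (o ∈ cl ω (A η)))]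
    refine Ex_le_const hq fun η _ => ?_
    have hq' := upd_P01 hq U η
    refine (glue F o hq' (g := fun K => ind (∀ t ∈ T, t ∉ K))
      (fun _ _ h => ind_mono fun h1 t ht h2 => h1 t ht (h h2)) (A (keep η U)) δ ?_ ?_).trans ?_
    · intro a ha
      have := (mem_filter.1 ha).2
      simp only [hbad, upd_keep] at this
      refine le_trans (le_of_eq (Ex_congr fun ω _ => ind_congr ?_)) this
      simp [link, mem_cl_single]
    · exact fun h => ho (hsub (mem_boxF.1 (mem_filter.1 h).1))
    · have : Ex F (upd q U η) (fun ω => ind (o ∈ cl ω (A (keep η U)))) ≤ 1 :=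
        Ex_le_const hq' fun _ _ => ind_le_one _
      nlinarith
  have h5 : Ex F q (fun ω => ind (M < (Nf c w' o (del ω U)).card ∧
      ∀ z ∈ Nf c w' o (del ω U), z ∉ A (keep ω U))) ≤ (1 - η0) ^ M' + M' * η0 * δ := by
    rw [indep2 q U F (fun a ξ => ind (M < (Nf c w' o ξ).card ∧ ∀ z ∈ Nf c w' o ξ, z ∉ A a)),
      Ex_comm]
    refine Ex_le_const hq fun ω _ => ?_
    set N := Nf c w' o (del ω U) with hN
    have hη1 : η0 ≤ 1 := pow_le_one₀ hp0 hp1.le
    have hη2 : 0 ≤ η0 := pow_nonneg hp0 _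
    by_cases c1 : M < N.card
    swap
    · refine Ex_le_const hq fun η _ => ?_
      rw [ind_neg fun h => c1 h.1]
      have := pow_nonneg (sub_nonneg.2 hη1) M'
      positivity
    obtain ⟨N', hN1, hN2, hN3⟩ := exists_far N (4 * r + 1) M' (by omega) (by exact_mod_cast c1)
    set x : Pt D → Pt D := fun z => clamp c (fun i => w' i - r) z with hx
    have hx1 : ∀ z, x z ∈ box c (fun i => w' i - r) := by
      intro z i
      have := hw i
      simp only [hx, clamp, hw']
      rw [abs_le]; omega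
    have hx2 : ∀ z ∈ box c w', z ∈ cube (x z) r := by
      intro z hz i
      have h1 := hw i
      have h2 := hz i
      simp only [hx, clamp, hw'] at h2 ⊢
      rw [abs_le] at *; omega
    have hx3 : ∀ z, cube (x z) r ⊆ box c w' := by
      intro z y hy i
      have h1 := hx1 z i
      have h2 := hy i
      dsimp only at h1
      rw [abs_le] at *; omega
    have hx4 : ∀ z, cube (x z) n ⊆ box c (fun i => w i + (n + K)) := by
      intro z y hy i
      have h1 := hx1 z i
      have h2 := hy i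
      simp only [hw'] at h1 ⊢
      rw [abs_le] at *; omega
    set S : Pt D → Finset (Sym2 (Pt D)) := fun z => EF (cubeF (x z) r) with hS
    have hS1 : ∀ z, ∀ e ∈ S z, e ∈ F ∧ q e = p ∧ e ∈ U := by
      intro z e he
      induction e using Sym2.ind with
      | h a b =>
        have h1 := mk_mem_EF.1 he
        have h2 := hx3 z (mem_cubeF.1 h1.1.1)
        have h3 := hx3 z (mem_cubeF.1 h1.1.2)
        have := hF _ (hsub h2) _ (hsub h3) h1.2
        exact ⟨this.1, this.2, mk_mem_ins.2 ⟨h2, h3⟩⟩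
    have hS2 : ∀ z, ∏ e ∈ S z, q e = η0 := fun z => by
      rw [prod_congr rfl fun e he => (hS1 z e he).2.1, prod_const, card_EF_cube]
    have hb : ∀ z ∈ N', Ex F q (fun η => ind (S z ⊆ η) * ind (z ∉ A (keep η U))) ≤ η0 * δ := by
      intro z hz
      have hz' : z ∈ box c w' := (mem_Nf.1 (hN1 hz)).1
      have a1 : Ex F q (fun η => ind (S z ⊆ η) * ind (z ∉ A (keep η U))) * δ ≤
          Ex F q (fun η => Ex F (upd q U η)
            ((fun a ω => ind (S z ⊆ a) * ind (¬ link ω {z} T)) (keep η U))) := by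
        rw [← Ex_mul_right]
        refine Ex_mono hq fun η _ => ?_
        dsimp only
        rw [Ex_mul_left, mul_assoc, ind_congr (P := S z ⊆ keep η U) (Q := S z ⊆ η)
          ⟨fun h => h.trans (keep_subset _ _),
            fun h e he => mem_keep.2 ⟨h he, (hS1 z e he).2.2⟩⟩]
        refine mul_le_mul_of_nonneg_left ?_ (ind_nonneg _)
        by_cases c2 : z ∈ A (keep η U)
        · rw [ind_neg (not_not.2 c2), zero_mul]
          exact Ex_nonneg (upd_P01 hq _ _) fun _ _ => ind_nonneg _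
        · rw [ind_pos c2, one_mul]
          have : ¬ bad z (keep η U) ≤ δ := fun h => c2 (mem_filter.2 ⟨mem_boxF.2 hz', h⟩)
          simp only [hbad, upd_keep] at this
          exact (not_le.1 this).le
      rw [← tower q U F (fun a ω => ind (S z ⊆ a) * ind (¬ link ω {z} T))] at a1
      have a2 : Ex F q (fun ω => ind (S z ⊆ keep ω U) * ind (¬ link ω {z} T)) ≤
          Ex F q (fun ω => ind (S z ⊆ ω) *
            ind (¬ link (keep ω (ins (cube (x z) n))) (cube (x z) r) T)) := by
        refine Ex_mono hq fun ω _ => ?_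
        rw [← ind_and, ← ind_and]
        refine ind_mono fun h => ⟨h.1.trans (keep_subset _ _), ?_⟩
        rintro ⟨s, hs, t, ht, hc⟩
        have h1 := cube_conn (h.1.trans (keep_subset _ _))
        exact h.2 ⟨z, rfl, t, ht, ((h1 z (hx2 z hz')).symm.trans (h1 s hs)).trans
          (hc.mono (keep_subset _ _))⟩
      have a3 := harris_mixed hq F (fun ω => ind (S z ⊆ ω))
        (fun ω => ind (¬ link (keep ω (ins (cube (x z) n))) (cube (x z) r) T))
        (fun _ _ h => ind_mono fun h1 => h1.trans h)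
        (fun _ _ h => ind_mono fun h1 h2 =>
          h1 (h2.mono (keep_mono h subset_rfl) subset_rfl subset_rfl))
      rw [Ex_all q F _ (fun e he => (hS1 z e he).1), hS2,
        Ex_fresh (fun _ => mem_cubeF) hL (hF.mono (hx4 z))
          (fun ω => ind (¬ link ω (cube (x z) r) T))] at a3
      have a4 := hT (x z) (fun i => (hx1 z i).trans (by simp only [hw']; omega))
      unfold lf at a4
      have a5 := mul_le_mul_of_nonneg_left a4 hη2
      refine le_of_mul_le_mul_right (a1.trans (a2.trans (a3.trans (a5.trans (le_of_eq ?_))))) hδ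
      ring
    have hpt : ∀ η : Finset (Sym2 (Pt D)), ind (M < N.card ∧ ∀ z ∈ N, z ∉ A (keep η U)) ≤
        ∏ z ∈ N', (1 - ind (S z ⊆ η)) + ∑ z ∈ N', ind (S z ⊆ η) * ind (z ∉ A (keep η U)) := by
      intro η
      have n1 : 0 ≤ ∏ z ∈ N', (1 - ind (S z ⊆ η)) :=
        prod_nonneg fun _ _ => sub_nonneg.2 (ind_le_one _)
      have n2 : ∀ z ∈ N', 0 ≤ ind (S z ⊆ η) * ind (z ∉ A (keep η U)) :=
        fun _ _ => mul_nonneg (ind_nonneg _) (ind_nonneg _)
      by_cases c2 : M < N.card ∧ ∀ z ∈ N, z ∉ A (keep η U)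
      · rw [ind_pos c2]
        by_cases c3 : ∃ z ∈ N', S z ⊆ η
        · obtain ⟨z, hz, h⟩ := c3
          have := single_le_sum n2 hz
          rw [ind_pos h, ind_pos (c2.2 z (hN1 hz))] at this
          linarith
        · rw [prod_eq_one fun z hz => by rw [ind_neg fun h => c3 ⟨z, hz, h⟩, sub_zero]]
          linarith [sum_nonneg n2]
      · rw [ind_neg c2]
        linarith [sum_nonneg n2]
    refine (Ex_mono hq fun η _ => hpt η).trans ?_
    rw [Ex_add, Ex_sum, Ex_prod_all q F S N' (fun z _ e he => (hS1 z e he).1),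
      prod_congr rfl fun z _ => by rw [hS2 z], prod_const, hN2]
    · have := sum_le_sum hb
      rw [sum_const, hN2, nsmul_eq_mul] at this
      linarith
    · intro z hz z' hz' hne
      obtain ⟨k, hk⟩ := hN3 z hz z' hz' hne
      refine disjoint_left.2 fun e he he' => ?_
      induction e using Sym2.ind with
      | h a b =>
        have b1 := mem_cubeF.1 (mk_mem_EF.1 he).1.1 k
        have b2 := mem_cubeF.1 (mk_mem_EF.1 he').1.1 k
        have b3 := hx2 z (mem_Nf.1 (hN1 hz)).1 k
        have b4 := hx2 z' (mem_Nf.1 (hN1 hz')).1 k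
        push_cast at hk
        rw [abs_le] at b1 b2 b3 b4
        rcases le_abs.1 hk with h | h <;> omega
  refine le_trans (Ex_mono hq (g := fun ω =>
    ind ((Nf c w' o (del ω U)).Nonempty ∧ (Nf c w' o (del ω U)).card ≤ M) +
    ind (M < (Nf c w' o (del ω U)).card ∧ ∀ z ∈ Nf c w' o (del ω U), z ∉ A (keep ω U)) +
    ind (∀ t ∈ T, t ∉ cl ω {o}) * ind (o ∈ cl ω (A (keep ω U)))) fun ω _ => ?_) ?_
  · have n1 := ind_nonneg ((Nf c w' o (del ω U)).Nonempty ∧ (Nf c w' o (del ω U)).card ≤ M)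
    have n2 := ind_nonneg (M < (Nf c w' o (del ω U)).card ∧
      ∀ z ∈ Nf c w' o (del ω U), z ∉ A (keep ω U))
    have n3 := mul_nonneg (ind_nonneg (∀ t ∈ T, t ∉ cl ω {o}))
      (ind_nonneg (o ∈ cl ω (A (keep ω U))))
    by_cases c1 : link ω {o} (box c w) ∧ ¬ link ω {o} T
    swap
    · rw [ind_neg c1]; linarith
    rw [ind_pos c1]
    obtain ⟨⟨s, hs, t, ht, hc⟩, c2⟩ := c1
    obtain rfl : s = o := hs
    obtain ⟨z, hz, hz'⟩ := entry (fun h => ho (hsub h)) hc
      (fun i => (ht i).trans (by simp only [hw']; omega))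
    by_cases c3 : (Nf c w' s (del ω U)).card ≤ M
    · rw [ind_pos (P := _ ∧ _ ≤ M) ⟨⟨z, mem_Nf.2 ⟨hz, hz'⟩⟩, c3⟩]; linarith
    by_cases c4 : ∀ z ∈ Nf c w' s (del ω U), z ∉ A (keep ω U)
    · rw [ind_pos (P := M < _ ∧ _) ⟨not_le.1 c3, c4⟩]; linarith
    push Not at c4
    obtain ⟨y, hy, hy'⟩ := c4
    rw [ind_pos (P := ∀ t ∈ T, t ∉ cl ω {s})
      (fun t ht h => c2 ⟨s, rfl, t, ht, mem_cl_single.1 h⟩),
      ind_pos (P := s ∈ cl ω _) ⟨y, hy', ((mem_Nf.1 hy).2.mono (del_subset _ _)).symm⟩]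
    linarith
  · rw [Ex_add, Ex_add]
    linarith

end Vale.Agent.P151
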