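import Vale.Agent.P151.Ex

/-! Connectivity in finite edge configurations. -/

set_option linter.unusedSectionVars false

namespace Vale.Agent.P151

open Finset

variable {V : Type*} [DecidableEq V]

def conn (ω : Finset (Sym2 V)) (x y : V) : Prop :=
  Relation.ReflTransGen (fun u v => s(u, v) ∈ ω) x y

def cl (ω : Finset (Sym2 V)) (B : Set V) : Set V := {v | ∃ b ∈ B, conn ω b v}

def touch (L : Set V) : Set (Sym2 V) := {e | ∃ v ∈ L, v ∈ e}

theorem conn_refl (ω : Finset (Sym2 V)) (x : V) : conn ω x x := Relation.ReflTransGen.refl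

theorem conn.trans {ω : Finset (Sym2 V)} {x y z : V} (h : conn ω x y) (h' : conn ω y z) :
    conn ω x z := Relation.ReflTransGen.trans h h'

theorem conn_edge {ω : Finset (Sym2 V)} {x y : V} (h : s(x, y) ∈ ω) : conn ω x y :=
  Relation.ReflTransGen.single h

theorem conn.symm {ω : Finset (Sym2 V)} {x y : V} (h : conn ω x y) : conn ω y x := by
  induction h with
  | refl => exact conn_refl _ _
  | tail _ h ih => exact (conn_edge (by rwa [Sym2.eq_swap])).trans ih

theorem conn.mono {ω ω' : Finset (Sym2 V)} {x y : V} (h : conn ω x y) (hs : ω ⊆ ω') :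
    conn ω' x y := by
  induction h with
  | refl => exact conn_refl _ _
  | tail _ h ih => exact ih.trans (conn_edge (hs h))

theorem conn_empty {x y : V} (h : conn ∅ x y) : x = y := by
  induction h with
  | refl => rfl
  | tail _ h _ => simp at h

theorem mem_cl {ω : Finset (Sym2 V)} {B : Set V} {v : V} : v ∈ cl ω B ↔ ∃ b ∈ B, conn ω b v :=
  Iff.rfl

theorem mem_cl_single {ω : Finset (Sym2 V)} {x v : V} : v ∈ cl ω {x} ↔ conn ω x v := by
  simp [mem_cl]

theorem subset_cl (ω : Finset (Sym2 V)) (B : Set V) : B ⊆ cl ω B :=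
  fun b hb => ⟨b, hb, conn_refl _ _⟩

theorem cl_mono {ω ω' : Finset (Sym2 V)} {B B' : Set V} (h : ω ⊆ ω') (h' : B ⊆ B') :
    cl ω B ⊆ cl ω' B' := fun _ ⟨b, hb, hc⟩ => ⟨b, h' hb, hc.mono h⟩

theorem cl_empty (B : Set V) : cl (∅ : Finset (Sym2 V)) B = B :=
  Set.Subset.antisymm (fun _ ⟨_, hb, hc⟩ => conn_empty hc ▸ hb) (subset_cl _ _)

theorem cl_conn {ω : Finset (Sym2 V)} {B : Set V} {u v : V} (h : u ∈ cl ω B) (h' : conn ω u v) :
    v ∈ cl ω B := let ⟨b, hb, hc⟩ := h; ⟨b, hb, hc.trans h'⟩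

theorem cl_single_eq {ω : Finset (Sym2 V)} {x y : V} (h : conn ω x y) : cl ω {x} = cl ω {y} := by
  ext v
  simp only [mem_cl_single]
  exact ⟨fun c => h.symm.trans c, fun c => h.trans c⟩

theorem notMem_cl_iff {ω : Finset (Sym2 V)} {B : Set V} {y : V} :
    y ∉ cl ω B ↔ ∀ b ∈ B, b ∉ cl ω {y} := by
  exact ⟨fun h b hb c => h ⟨b, hb, (mem_cl_single.1 c).symm⟩,
    fun h ⟨b, hb, c⟩ => h b hb (mem_cl_single.2 c.symm)⟩

theorem touch_mono {L L' : Set V} (h : L ⊆ L') : touch L ⊆ touch L' :=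
  fun _ ⟨v, hv, he⟩ => ⟨v, h hv, he⟩

theorem conn_del {ω : Finset (Sym2 V)} {C : Set V} {x y : V} (hx : x ∉ cl ω C)
    (h : conn ω x y) : conn (del ω (touch (cl ω C))) x y := by
  induction h with
  | refl => exact conn_refl _ _
  | @tail u v h1 h2 ih =>
    refine ih.trans (conn_edge (mem_del.2 ⟨h2, ?_⟩))
    rintro ⟨w, hw, hw'⟩
    rcases Sym2.mem_iff.1 hw' with rfl | rfl
    · exact hx (cl_conn hw (conn.symm h1))
    · exact hx (cl_conn hw (conn.symm (Relation.ReflTransGen.tail h1 h2)))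

theorem cl_del {ω : Finset (Sym2 V)} {B C : Set V} (h : ∀ b ∈ B, b ∉ cl ω C) :
    cl (del ω (touch (cl ω C))) B = cl ω B :=
  Set.Subset.antisymm (cl_mono (del_subset _ _) subset_rfl)
    fun _ ⟨b, hb, hc⟩ => ⟨b, hb, conn_del (h b hb) hc⟩

theorem cl_del_single {ω : Finset (Sym2 V)} {C : Set V} {x : V} (h : x ∉ cl ω C) :
    cl (del ω (touch (cl ω C))) {x} = cl ω {x} :=
  cl_del (by simpa using h)

theorem cl_local {η η' : Finset (Sym2 V)} {B : Set V}
    (h : keep η (touch (cl η B)) = keep η' (touch (cl η B))) : cl η' B = cl η B := by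
  apply Set.Subset.antisymm
  · rintro v ⟨b, hb, hc⟩
    induction hc with
    | refl => exact subset_cl _ _ hb
    | @tail u v _ h2 ih =>
      have : s(u, v) ∈ keep η' (touch (cl η B)) := mem_keep.2 ⟨h2, u, ih, by simp⟩
      rw [← h] at this
      exact cl_conn ih (conn_edge (mem_keep.1 this).1)
  · rintro v ⟨b, hb, hc⟩
    induction hc with
    | refl => exact subset_cl _ _ hb
    | @tail u v h1 h2 ih =>
      have : s(u, v) ∈ keep η (touch (cl η B)) := mem_keep.2 ⟨h2, u, ⟨b, hb, h1⟩, by simp⟩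
      rw [h] at this
      exact cl_conn ih (conn_edge (mem_keep.1 this).1)

theorem cl_local' (Z : Set (Sym2 V)) (B : Set V) (η η' : Finset (Sym2 V))
    (h : keep η (touch (cl (del η Z) B)) = keep η' (touch (cl (del η Z) B))) :
    cl (del η' Z) B = cl (del η Z) B := by
  apply cl_local
  ext e
  have := Finset.ext_iff.1 h e
  simp only [mem_keep, mem_del] at this ⊢
  tauto

theorem resample_cl (p : Sym2 V → ℝ) (F : Finset (Sym2 V)) (B : Set V)
    (Φ : Set V → Finset (Sym2 V) → ℝ) :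
    Ex F p (fun η => Φ (cl η B) (del η (touch (cl η B)))) =
      Ex F p (fun η => Ex F p (fun ω => Φ (cl η B) (del ω (touch (cl η B))))) :=
  resample p F (fun η => cl η B) touch (fun _ _ h => cl_local h) Φ

end Vale.Agent.P151
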