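import Mathlib

/-! Finite product expectations. -/

set_option linter.unusedSectionVars false

namespace Vale.Agent.P151

open Finset

variable {ι κ : Type*} [DecidableEq ι] [DecidableEq κ]

open Classical in
noncomputable def ind (P : Prop) : ℝ := if P then 1 else 0

theorem ind_pos {P : Prop} (h : P) : ind P = 1 := by simp [ind, h]
theorem ind_neg {P : Prop} (h : ¬ P) : ind P = 0 := by simp [ind, h]
theorem ind_nonneg (P : Prop) : 0 ≤ ind P := by unfold ind; split_ifs <;> simp
theorem ind_le_one (P : Prop) : ind P ≤ 1 := by unfold ind; split_ifs <;> simp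
theorem ind_congr {P Q : Prop} (h : P ↔ Q) : ind P = ind Q := by rw [propext h]
theorem ind_mono {P Q : Prop} (h : P → Q) : ind P ≤ ind Q := by
  by_cases c : P
  · rw [ind_pos c, ind_pos (h c)]
  · rw [ind_neg c]; exact ind_nonneg _
theorem ind_not (P : Prop) : ind (¬ P) = 1 - ind P := by
  by_cases c : P <;> simp [ind, c]
theorem ind_and (P Q : Prop) : ind (P ∧ Q) = ind P * ind Q := by
  by_cases c : P <;> by_cases c' : Q <;> simp [ind, c, c']
theorem ind_or_le (P Q : Prop) : ind (P ∨ Q) ≤ ind P + ind Q := by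
  by_cases c : P <;> by_cases c' : Q <;> simp [ind, c, c']
@[simp] theorem ind_true : ind True = 1 := ind_pos trivial
@[simp] theorem ind_false : ind False = 0 := ind_neg id

noncomputable def Ex (F : Finset ι) (p : ι → ℝ) (f : Finset ι → ℝ) : ℝ :=
  ∑ S ∈ F.powerset, ((∏ i ∈ S, p i) * ∏ i ∈ F \ S, (1 - p i)) * f S

def P01 (p : ι → ℝ) : Prop := ∀ i, 0 ≤ p i ∧ p i ≤ 1

@[simp] theorem Ex_empty (p : ι → ℝ) (f : Finset ι → ℝ) : Ex ∅ p f = f ∅ := by
  simp [Ex]

theorem Ex_insert {F : Finset ι} {e : ι} (h : e ∉ F) (p : ι → ℝ) (f : Finset ι → ℝ) :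
    Ex (insert e F) p f = p e * Ex F p (fun S => f (insert e S)) + (1 - p e) * Ex F p f := by
  unfold Ex
  rw [sum_powerset_insert h, add_comm, mul_sum, mul_sum]
  congr 1
  · refine sum_congr rfl fun S hS => ?_
    have hS' : e ∉ S := fun c => h (mem_powerset.1 hS c)
    rw [prod_insert hS', insert_sdiff_insert, sdiff_insert_of_notMem h]
    ring
  · refine sum_congr rfl fun S hS => ?_
    have hS' : e ∉ S := fun c => h (mem_powerset.1 hS c)
    rw [insert_sdiff_of_notMem _ hS', prod_insert (by simp [h])]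
    ring

theorem Ex_congr {F : Finset ι} {p : ι → ℝ} {f g : Finset ι → ℝ} (h : ∀ S ⊆ F, f S = g S) :
    Ex F p f = Ex F p g :=
  sum_congr rfl fun S hS => by rw [h S (mem_powerset.1 hS)]

theorem Ex_congr_p {F : Finset ι} {p q : ι → ℝ} (f : Finset ι → ℝ) (h : ∀ i ∈ F, p i = q i) :
    Ex F p f = Ex F q f :=
  sum_congr rfl fun S hS => by
    have e1 : ∏ i ∈ S, p i = ∏ i ∈ S, q i := prod_congr rfl fun i hi => h i (mem_powerset.1 hS hi)
    have e2 : ∏ i ∈ F \ S, (1 - p i) = ∏ i ∈ F \ S, (1 - q i) :=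
      prod_congr rfl fun i hi => by rw [h i (mem_sdiff.1 hi).1]
    rw [e1, e2]

@[simp] theorem Ex_const (F : Finset ι) (p : ι → ℝ) (c : ℝ) : Ex F p (fun _ => c) = c := by
  induction F using Finset.induction_on with
  | empty => simp
  | insert e F h ih => rw [Ex_insert h, ih]; ring

theorem Ex_add (F : Finset ι) (p : ι → ℝ) (f g : Finset ι → ℝ) :
    Ex F p (fun S => f S + g S) = Ex F p f + Ex F p g := by
  simp [Ex, mul_add, sum_add_distrib]

theorem Ex_sub (F : Finset ι) (p : ι → ℝ) (f g : Finset ι → ℝ) :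
    Ex F p (fun S => f S - g S) = Ex F p f - Ex F p g := by
  simp [Ex, mul_sub, sum_sub_distrib]

theorem Ex_neg (F : Finset ι) (p : ι → ℝ) (f : Finset ι → ℝ) :
    Ex F p (fun S => - f S) = - Ex F p f := by
  simp [Ex]

theorem Ex_mul_left (F : Finset ι) (p : ι → ℝ) (c : ℝ) (f : Finset ι → ℝ) :
    Ex F p (fun S => c * f S) = c * Ex F p f := by
  simp only [Ex, mul_sum]
  exact sum_congr rfl fun _ _ => by ring

theorem Ex_mul_right (F : Finset ι) (p : ι → ℝ) (c : ℝ) (f : Finset ι → ℝ) :
    Ex F p (fun S => f S * c) = Ex F p f * c := by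
  simp only [Ex, sum_mul]
  exact sum_congr rfl fun _ _ => by ring

theorem Ex_sum {α : Type*} (F : Finset ι) (p : ι → ℝ) (A : Finset α) (f : α → Finset ι → ℝ) :
    Ex F p (fun S => ∑ a ∈ A, f a S) = ∑ a ∈ A, Ex F p (f a) := by
  simp only [Ex, mul_sum]
  exact sum_comm

theorem wt_nonneg {p : ι → ℝ} (hp : P01 p) (F S : Finset ι) :
    0 ≤ (∏ i ∈ S, p i) * ∏ i ∈ F \ S, (1 - p i) :=
  mul_nonneg (prod_nonneg fun i _ => (hp i).1) (prod_nonneg fun i _ => sub_nonneg.2 (hp i).2)

theorem Ex_mono {F : Finset ι} {p : ι → ℝ} (hp : P01 p) {f g : Finset ι → ℝ}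
    (h : ∀ S ⊆ F, f S ≤ g S) : Ex F p f ≤ Ex F p g :=
  sum_le_sum fun S hS => mul_le_mul_of_nonneg_left (h S (mem_powerset.1 hS)) (wt_nonneg hp F S)

theorem Ex_nonneg {F : Finset ι} {p : ι → ℝ} (hp : P01 p) {f : Finset ι → ℝ}
    (h : ∀ S ⊆ F, 0 ≤ f S) : 0 ≤ Ex F p f := by
  simpa using Ex_mono hp (f := fun _ => 0) h

theorem Ex_le_const {F : Finset ι} {p : ι → ℝ} (hp : P01 p) {f : Finset ι → ℝ} {c : ℝ}
    (h : ∀ S ⊆ F, f S ≤ c) : Ex F p f ≤ c := by
  simpa using Ex_mono hp (g := fun _ => c) h

/-- monotonicity on the support -/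
theorem Ex_mono_supp {F : Finset ι} {p : ι → ℝ} (hp : P01 p) {f g : Finset ι → ℝ}
    (h : ∀ S ⊆ F, (∀ i ∈ S, p i ≠ 0) → (∀ i ∈ F, i ∉ S → p i ≠ 1) → f S ≤ g S) :
    Ex F p f ≤ Ex F p g :=
  sum_le_sum fun S hS => by
    by_cases h1 : ∀ i ∈ S, p i ≠ 0
    · by_cases h2 : ∀ i ∈ F, i ∉ S → p i ≠ 1
      · exact mul_le_mul_of_nonneg_left (h S (mem_powerset.1 hS) h1 h2) (wt_nonneg hp F S)
      · push Not at h2
        obtain ⟨i, hi, hi', e⟩ := h2
        rw [prod_eq_zero (s := F \ S) (mem_sdiff.2 ⟨hi, hi'⟩) (by rw [e]; ring)]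
        simp
    · push Not at h1
      obtain ⟨i, hi, e⟩ := h1
      rw [prod_eq_zero hi e]
      simp

/-- the empty configuration has positive weight -/
theorem Ex_ge_empty {F : Finset ι} {p : ι → ℝ} (hp : P01 p) {f : Finset ι → ℝ}
    (h : ∀ S ⊆ F, 0 ≤ f S) : (∏ i ∈ F, (1 - p i)) * f ∅ ≤ Ex F p f := by
  have := single_le_sum (s := F.powerset)
    (f := fun S => ((∏ i ∈ S, p i) * ∏ i ∈ F \ S, (1 - p i)) * f S)
    (fun S hS => mul_nonneg (wt_nonneg hp F S) (h S (mem_powerset.1 hS))) (empty_mem_powerset F)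
  simpa [Ex] using this

theorem harris {p : ι → ℝ} (hp : P01 p) (F : Finset ι) :
    ∀ f g : Finset ι → ℝ, Monotone f → Monotone g →
      Ex F p f * Ex F p g ≤ Ex F p (fun S => f S * g S) := by
  induction F using Finset.induction_on with
  | empty => intro f g _ _; simp
  | insert e F h ih =>
    intro f g hf hg
    rw [Ex_insert h, Ex_insert h, Ex_insert h]
    have m : ∀ f : Finset ι → ℝ, Monotone f → Monotone fun S => f (insert e S) :=
      fun f hf S T hST => hf (insert_subset_insert e hST)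
    have h1 := ih _ _ (m f hf) (m g hg)
    have h2 := ih _ _ hf hg
    have h3 : Ex F p f ≤ Ex F p (fun S => f (insert e S)) :=
      Ex_mono hp fun S _ => hf (subset_insert e S)
    have h4 : Ex F p g ≤ Ex F p (fun S => g (insert e S)) :=
      Ex_mono hp fun S _ => hg (subset_insert e S)
    have h5 := (hp e).1
    have h6 := sub_nonneg.2 (hp e).2
    have h7 := mul_nonneg (mul_nonneg h5 h6) (mul_nonneg (sub_nonneg.2 h3) (sub_nonneg.2 h4))
    nlinarith [mul_le_mul_of_nonneg_left h1 h5, mul_le_mul_of_nonneg_left h2 h6]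

theorem harris_anti {p : ι → ℝ} (hp : P01 p) (F : Finset ι) (f g : Finset ι → ℝ)
    (hf : Antitone f) (hg : Antitone g) :
      Ex F p f * Ex F p g ≤ Ex F p (fun S => f S * g S) := by
  have := harris hp F (fun S => - f S) (fun S => - g S) hf.neg hg.neg
  simpa [Ex_neg] using this

theorem harris_mixed {p : ι → ℝ} (hp : P01 p) (F : Finset ι) (f g : Finset ι → ℝ)
    (hf : Monotone f) (hg : Antitone g) :
      Ex F p (fun S => f S * g S) ≤ Ex F p f * Ex F p g := by
  have := harris hp F f (fun S => - g S) hf hg.neg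
  simp only [Ex_neg, mul_neg] at this
  linarith

open Classical in
noncomputable def keep (S : Finset ι) (T : Set ι) : Finset ι := S.filter (· ∈ T)
open Classical in
noncomputable def del (S : Finset ι) (T : Set ι) : Finset ι := S.filter (· ∉ T)

@[simp] theorem mem_keep {S : Finset ι} {T : Set ι} {e : ι} : e ∈ keep S T ↔ e ∈ S ∧ e ∈ T := by
  simp [keep]
@[simp] theorem mem_del {S : Finset ι} {T : Set ι} {e : ι} : e ∈ del S T ↔ e ∈ S ∧ e ∉ T := by
  simp [del]

theorem keep_mono {S S' : Finset ι} {T T' : Set ι} (h : S ⊆ S') (h' : T ⊆ T') :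
    keep S T ⊆ keep S' T' := fun e he => by
  rw [mem_keep] at he ⊢; exact ⟨h he.1, h' he.2⟩

theorem del_mono {S S' : Finset ι} {T T' : Set ι} (h : S ⊆ S') (h' : T' ⊆ T) :
    del S T ⊆ del S' T' := fun e he => by
  rw [mem_del] at he ⊢; exact ⟨h he.1, fun c => he.2 (h' c)⟩

theorem keep_subset (S : Finset ι) (T : Set ι) : keep S T ⊆ S := fun _ h => (mem_keep.1 h).1
theorem del_subset (S : Finset ι) (T : Set ι) : del S T ⊆ S := fun _ h => (mem_del.1 h).1

theorem hybrid (p : ι → ℝ) (T : Set ι) (F : Finset ι) : ∀ f : Finset ι → ℝ,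
    Ex F p f = Ex F p (fun η => Ex F p (fun ω => f (keep η T ∪ del ω T))) := by
  induction F using Finset.induction_on with
  | empty => intro f; simp [keep, del]
  | insert e F h ih =>
    intro f
    rw [Ex_insert h, ih (fun S => f (insert e S)), ih f, Ex_insert h]
    simp only [Ex_insert h, Ex_add, Ex_mul_left]
    by_cases c : e ∈ T
    · have e1 : ∀ η ω : Finset ι, keep (insert e η) T ∪ del ω T = insert e (keep η T ∪ del ω T) := by
        intro η ω; ext x; simp only [mem_union, mem_keep, mem_del, mem_insert]; grind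
      have e2 : ∀ ω : Finset ι, del (insert e ω) T = del ω T := by
        intro ω; ext x; simp only [mem_del, mem_insert]; grind
      simp only [e1, e2]
      ring
    · have e1 : ∀ η ω : Finset ι, keep η T ∪ del (insert e ω) T = insert e (keep η T ∪ del ω T) := by
        intro η ω; ext x; simp only [mem_union, mem_keep, mem_del, mem_insert]; grind
      have e2 : ∀ ω : Finset ι, keep (insert e ω) T = keep ω T := by
        intro ω; ext x; simp only [mem_keep, mem_insert]; grind
      simp only [e1, e2]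
      ring

theorem keep_hyb (η ω : Finset ι) (T : Set ι) : keep (keep η T ∪ del ω T) T = keep η T := by
  ext x; simp only [mem_union, mem_keep, mem_del]; grind

theorem del_hyb (η ω : Finset ι) (T : Set ι) : del (keep η T ∪ del ω T) T = del ω T := by
  ext x; simp only [mem_union, mem_keep, mem_del]; grind

theorem indep2 (p : ι → ℝ) (T : Set ι) (F : Finset ι) (Φ : Finset ι → Finset ι → ℝ) :
    Ex F p (fun ω => Φ (keep ω T) (del ω T)) =
      Ex F p (fun η => Ex F p (fun ω => Φ (keep η T) (del ω T))) := by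
  rw [hybrid p T F]
  simp only [keep_hyb, del_hyb]

theorem indep (p : ι → ℝ) (T : Set ι) (F : Finset ι) (f g : Finset ι → ℝ) :
    Ex F p (fun ω => f (keep ω T) * g (del ω T)) =
      Ex F p (fun ω => f (keep ω T)) * Ex F p (fun ω => g (del ω T)) := by
  rw [indep2 p T F (fun a b => f a * g b)]
  simp only [Ex_mul_left, Ex_mul_right]

theorem Ex_comm (p q : ι → ℝ) (F G : Finset ι) (Φ : Finset ι → Finset ι → ℝ) :
    Ex F p (fun η => Ex G q (fun ω => Φ η ω)) = Ex G q (fun ω => Ex F p (fun η => Φ η ω)) := by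
  unfold Ex
  simp only [mul_sum]
  rw [sum_comm]
  exact sum_congr rfl fun _ _ => sum_congr rfl fun _ _ => by ring

/-- resampling outside an adaptively chosen set -/
theorem resample {α : Type*} (p : ι → ℝ) (F : Finset ι) (L : Finset ι → α) (T : α → Set ι)
    (hL : ∀ η η', keep η (T (L η)) = keep η' (T (L η)) → L η' = L η)
    (Φ : α → Finset ι → ℝ) :
    Ex F p (fun η => Φ (L η) (del η (T (L η)))) =
      Ex F p (fun η => Ex F p (fun ω => Φ (L η) (del ω (T (L η))))) := by
  classical
  have key : ∀ a η, L η = a ↔ L (keep η (T a)) = a := by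
    intro a η
    constructor
    · rintro rfl
      exact hL _ _ (by ext x; simp)
    · intro h
      rw [← h]
      refine hL _ _ ?_
      rw [h]; ext x; simp
  have split : ∀ g : α → Finset ι → ℝ, Ex F p (fun η => g (L η) η) =
      ∑ a ∈ F.powerset.image L, Ex F p (fun η => (if L (keep η (T a)) = a then 1 else 0) * g a η) := by
    intro g
    rw [← Ex_sum]
    refine Ex_congr fun S hS => ?_
    simp only [← key]
    rw [sum_eq_single_of_mem (L S) (mem_image_of_mem _ (mem_powerset.2 hS))]
    · simp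
    · intro b _ hb; simp [hb.symm]
  rw [split (fun a η => Φ a (del η (T a))), split (fun a _ => Ex F p (fun ω => Φ a (del ω (T a))))]
  refine sum_congr rfl fun a _ => ?_
  rw [indep p (T a) F (fun S => if L S = a then 1 else 0) (Φ a), Ex_mul_right]

theorem Ex_keep (p : ι → ℝ) (T : Set ι) (F : Finset ι) : ∀ g : Finset ι → ℝ,
    Ex F p (fun S => g (keep S T)) = Ex (keep F T) p g := by
  induction F using Finset.induction_on with
  | empty => intro g; simp [keep]
  | insert e F h ih =>
    intro g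
    rw [Ex_insert h]
    by_cases c : e ∈ T
    · have e1 : ∀ η : Finset ι, keep (insert e η) T = insert e (keep η T) := by
        intro η; ext x; simp only [mem_keep, mem_insert]; grind
      simp only [e1]
      rw [Ex_insert (by simp [h]), ih g, ih (fun S => g (insert e S))]
    · have e2 : ∀ ω : Finset ι, keep (insert e ω) T = keep ω T := by
        intro ω; ext x; simp only [mem_keep, mem_insert]; grind
      simp only [e2]
      rw [ih g]; ring

theorem Ex_map (φ : ι ↪ κ) (p : κ → ℝ) (F : Finset ι) : ∀ f : Finset κ → ℝ,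
    Ex (F.map φ) p f = Ex F (fun i => p (φ i)) (fun S => f (S.map φ)) := by
  induction F using Finset.induction_on with
  | empty => intro f; simp
  | insert e F h ih =>
    intro f
    rw [map_insert, Ex_insert (by simpa using h), Ex_insert h, ih, ih]
    simp only [map_insert]

open Classical in
noncomputable def upd (q : ι → ℝ) (T : Set ι) (η : Finset ι) : ι → ℝ :=
  fun i => if i ∈ T then (if i ∈ η then 1 else 0) else q i

theorem upd_P01 {q : ι → ℝ} (hq : P01 q) (T : Set ι) (η : Finset ι) : P01 (upd q T η) := by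
  intro i
  unfold upd
  split_ifs
  · simp
  · simp
  · exact hq i

theorem Ex_upd (q : ι → ℝ) (T : Set ι) (η : Finset ι) (F : Finset ι) : ∀ f : Finset ι → ℝ,
    Ex F (upd q T η) f = Ex F q (fun ω => f (keep (η ∩ F) T ∪ del ω T)) := by
  induction F using Finset.induction_on with
  | empty => intro f; simp [keep, del]
  | insert e F h ih =>
    intro f
    rw [Ex_insert h, Ex_insert h, ih, ih]
    by_cases c : e ∈ T
    · have e2 : ∀ ω : Finset ι, del (insert e ω) T = del ω T := by
        intro ω; ext x; simp only [mem_del, mem_insert]; grind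
      simp only [e2]
      by_cases c' : e ∈ η
      · have e1 : ∀ ω : Finset ι, keep (η ∩ insert e F) T ∪ del ω T =
            insert e (keep (η ∩ F) T ∪ del ω T) := by
          intro ω; ext x; simp only [mem_union, mem_keep, mem_del, mem_insert, mem_inter]; grind
        simp only [e1, upd, c, c', if_true]
        ring
      · have e1 : η ∩ insert e F = η ∩ F := by
          ext x; simp only [mem_insert, mem_inter]; grind
        simp only [e1, upd, c, c', if_true, if_false]
        ring
    · have e1 : keep (η ∩ insert e F) T = keep (η ∩ F) T := by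
        ext x; simp only [mem_keep, mem_insert, mem_inter]; grind
      have e2 : ∀ ω : Finset ι, keep (η ∩ F) T ∪ del (insert e ω) T =
          insert e (keep (η ∩ F) T ∪ del ω T) := by
        intro ω; ext x; simp only [mem_union, mem_keep, mem_del, mem_insert, mem_inter]; grind
      simp only [e1, e2, upd, c, if_false]

theorem tower (q : ι → ℝ) (T : Set ι) (F : Finset ι) (Φ : Finset ι → Finset ι → ℝ) :
    Ex F q (fun ω => Φ (keep ω T) ω) =
      Ex F q (fun η => Ex F (upd q T η) (Φ (keep η T))) := by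
  rw [hybrid q T F]
  refine Ex_congr fun η hη => ?_
  rw [Ex_upd, inter_eq_left.2 hη]
  simp only [keep_hyb]

theorem upd_keep (q : ι → ℝ) (T : Set ι) (η : Finset ι) : upd q T (keep η T) = upd q T η := by
  funext i
  unfold upd
  by_cases c : i ∈ T <;> simp [c]

theorem Ex_continuous {X : Type*} [TopologicalSpace X] (F : Finset ι) (q : X → ι → ℝ)
    (hq : ∀ i, Continuous fun t => q t i) (f : Finset ι → ℝ) :
    Continuous fun t => Ex F (q t) f := by
  unfold Ex
  fun_prop

theorem Ex_all (p : ι → ℝ) (F A : Finset ι) (h : A ⊆ F) :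
    Ex F p (fun S => ind (A ⊆ S)) = ∏ i ∈ A, p i := by
  have : ∀ S : Finset ι, ind (A ⊆ S) = ind (A ⊆ keep S (↑A : Set ι)) := fun S =>
    ind_congr ⟨fun h x hx => by simp [h hx, hx], fun h => h.trans (keep_subset _ _)⟩
  rw [funext this, Ex_keep p _ F (fun S => ind (A ⊆ S))]
  have : keep F (↑A : Set ι) = A := by ext x; simp; exact fun hx => h hx
  rw [this]
  unfold Ex
  rw [sum_eq_single_of_mem A (mem_powerset_self A)]
  · simp
  · intro B hB hne
    have : ¬ A ⊆ B := fun c => hne (Subset.antisymm (mem_powerset.1 hB) c)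
    simp [this]

theorem Ex_none (p : ι → ℝ) (F A : Finset ι) (h : A ⊆ F) :
    Ex F p (fun S => ind (Disjoint A S)) = ∏ i ∈ A, (1 - p i) := by
  have : ∀ S : Finset ι, ind (Disjoint A S) = ind (keep S (↑A : Set ι) = ∅) := by
    intro S
    refine ind_congr ?_
    rw [disjoint_left, eq_empty_iff_forall_notMem]
    simp only [mem_keep, mem_coe]
    grind
  rw [funext this, Ex_keep p _ F (fun S => ind (S = ∅))]
  have : keep F (↑A : Set ι) = A := by ext x; simp; exact fun hx => h hx
  rw [this]
  unfold Ex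
  rw [sum_eq_single_of_mem ∅ (empty_mem_powerset A)]
  · simp
  · intro B _ hne
    simp [hne]

end Vale.Agent.P151
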