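import Vale.Agent.P151.Geo

/-! The adaptive exploration of the coarse grid. -/

set_option linter.unusedSectionVars false

namespace Vale.Agent.P151

open Finset

variable {D : ℕ}

structure Inv (i0 i1 : Fin D) (m : ℤ) (p : ℝ) (F : Finset (Sym2 (Pt D))) (o : Pt D)
    (O C : Finset Z2) (E : Set (Pt D)) (q : Sym2 (Pt D) → ℝ) (s : Z2 → ℤ) : Prop where
  ho : o ∈ E
  q1 : ∀ e, e ∉ ins E → q e = p
  q2 : ∀ e ∈ ins E, q e = 0 ∨ q e = 1
  hs : ∀ w, 21 ≤ s w ∧ s w ≤ 721554505728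
  desc : ∀ x ∈ E, ∃ w u t, (w ∈ O ∨ w ∈ C) ∧ u ∈ dirs ∧ 0 ≤ t ∧
    (t ≤ s w ∨ ((w + u ∈ O ∨ w + u ∈ C) ∧ t ≤ 2199023255552)) ∧
    x ∈ cube (cen i0 i1 m (pos w u t)) (11 * m - 1)
  front : ∀ v ∈ O, ∀ e ∈ dirs, ¬ dt O C (v + e) →
    Ex F q (fun ω => ind (¬ RR ω (E ∪ Arm i0 i1 m v e (s v) (s v + 21)) o
      (cube (cen i0 i1 m (pos v e (s v + 21))) (4 * m)))) ≤ 1 / 2 ^ 35
  sure : ∀ v ∈ O, v = (0, 0) ∨
    Ex F q (fun ω => ind (¬ RR ω E o (cube (cen i0 i1 m (pos v (1, 0) 0)) (4 * m)))) ≤ 0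

variable {i0 i1 : Fin D} {m : ℤ} {p : ℝ} {F : Finset (Sym2 (Pt D))} {o : Pt D}
  {O C : Finset Z2} {E : Set (Pt D)} {q : Sym2 (Pt D) → ℝ} {s : Z2 → ℤ}

theorem Inv.p01 (h : Inv i0 i1 m p F o O C E q s) (hp0 : 0 ≤ p) (hp1 : p ≤ 1) : P01 q := by
  intro e
  by_cases c : e ∈ ins E
  · rcases h.q2 e c with a | a <;> simp [a]
  · rw [h.q1 e c]; exact ⟨hp0, hp1⟩

theorem Inv.fresh (h : Inv i0 i1 m p F o O C E q s) (hi : i0 ≠ i1) (hm : 0 < m) {w u : Z2}
    (hu : u ∈ dirs) (hw : ¬ dt O C w) {t : ℤ} (h1 : 0 ≤ t) (h2 : t + 21 ≤ 2199023255552)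
    (h3 : t + s (w + u) + 21 ≤ 2199023255552)
    (hF : ∀ x ∈ cube (cen i0 i1 m (pos w u t)) (10 * m),
      ∀ y ∈ cube (cen i0 i1 m (pos w u t)) (10 * m), adj x y → s(x, y) ∈ F) :
    Fresh F q p (cube (cen i0 i1 m (pos w u t)) (10 * m)) ∧
      o ∉ cube (cen i0 i1 m (pos w u t)) (10 * m) := by
  have key : ∀ x ∈ cube (cen i0 i1 m (pos w u t)) (10 * m), x ∉ E := by
    intro x hx hE
    obtain ⟨w', u', t', a1, a2, a3, a4, a5⟩ := h.desc x hE
    have ne : ∀ z, (z ∈ O ∨ z ∈ C) → z ≠ w := fun z hz e =>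
      hw (e ▸ hz.imp_right Or.inl)
    have := h.hs w'
    rcases a4 with a4 | a4
    · exact geoA hu a2 h1 h2 a3 (by omega) (ne _ a1) (fun e => by rw [← e] at h3; omega)
        (near_of hi hm a5 hx)
    · exact geoS hu a2 h1 h2 a3 a4.2 (ne _ a1) (ne _ a4.1) (near_of hi hm a5 hx)
  exact ⟨fun x hx y hy hxy => ⟨hF x hx y hy hxy, h.q1 _ fun c => key x hx (mk_mem_ins.1 c).1⟩,
    fun c => key o c h.ho⟩

def EE (i0 i1 : Fin D) (m : ℤ) (E : Set (Pt D)) (v e : Z2) (a b : ℤ) : Set (Pt D) :=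
  (E ∪ Arm i0 i1 m v e a 2199023255552) ∪ {x | ∃ u ∈ dirs, x ∈ Arm i0 i1 m (v + e) u 0 b}

theorem cube_big (hm : 0 < m) {c : Pt D} : cube c (10 * m) ⊆ cube c (11 * m - 1) :=
  cube_mono (by omega)

theorem Inv.step (h : Inv i0 i1 m p F o O C E q s) (hi : i0 ≠ i1) (hm : 0 < m)
    (hp0 : 0 ≤ p) (hp1 : p ≤ 1) {v e : Z2} (hv : v ∈ O) (he : e ∈ dirs) (hw : ¬ dt O C (v + e))
    {b : ℤ} (hb : 21 ≤ b ∧ b ≤ 721554505728) {η : Finset (Sym2 (Pt D))}
    (h1 : ∀ i ∈ η, q i ≠ 0) (h2 : ∀ i ∈ F, i ∉ η → q i ≠ 1) {O' C' : Finset Z2}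
    (hO : ∀ x ∈ O', x ∈ O ∨ x = v + e) (hO' : O ⊆ O') (hC : C ⊆ C') (hOC : v + e ∈ O' ∨ v + e ∈ C')
    (hnew : v + e ∈ O' → (∀ u ∈ dirs,
      Ex F (upd q (ins (EE i0 i1 m E v e (s v) b)) η) (fun ω => ind (¬ RR ω
        (EE i0 i1 m E v e (s v) b ∪ Arm i0 i1 m (v + e) u b (b + 21)) o
        (cube (cen i0 i1 m (pos (v + e) u (b + 21))) (4 * m)))) ≤ 1 / 2 ^ 35) ∧
      Ex F (upd q (ins (EE i0 i1 m E v e (s v) b)) η) (fun ω => ind (¬ RR ω
        (EE i0 i1 m E v e (s v) b) o (cube (cen i0 i1 m (pos (v + e) (1, 0) 0)) (4 * m)))) ≤ 0) :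
    Inv i0 i1 m p F o O' C' (EE i0 i1 m E v e (s v) b)
      (upd q (ins (EE i0 i1 m E v e (s v) b)) η) (Function.update s (v + e) b) := by
  have sub : E ⊆ EE i0 i1 m E v e (s v) b := fun x hx => Or.inl (Or.inl hx)
  have ne : ∀ z, (z ∈ O ∨ z ∈ C) → z ≠ v + e := fun z hz e' =>
    hw (e' ▸ hz.imp_right Or.inl)
  have mo : ∀ z, (z ∈ O ∨ z ∈ C) → (z ∈ O' ∨ z ∈ C') := fun z hz =>
    hz.imp (fun a => hO' a) fun a => hC a
  have hq := upd_P01 (h.p01 hp0 hp1) (ins (EE i0 i1 m E v e (s v) b)) η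
  refine ⟨sub h.ho, fun i hi => ?_, fun i hi => ?_, fun w => ?_, ?_, ?_, ?_⟩
  · rw [upd, if_neg hi]
    exact h.q1 i fun c => hi (ins_mono sub c)
  · rw [upd, if_pos hi]
    split_ifs <;> simp
  · by_cases c : w = v + e
    · rw [c, Function.update_self]; exact hb
    · rw [Function.update_of_ne c]; exact h.hs w
  · rintro x ((hx | ⟨t, a1, a2, a3⟩) | ⟨u, hu, t, a1, a2, a3⟩)
    · obtain ⟨w', u', t', a1, a2, a3, a4, a5⟩ := h.desc x hx
      refine ⟨w', u', t', mo _ a1, a2, a3, ?_, a5⟩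
      rw [Function.update_of_ne (ne _ a1)]
      exact a4.imp_right fun a => ⟨mo _ a.1, a.2⟩
    · exact ⟨v, e, t, mo _ (Or.inl hv), he, by have := h.hs v; omega, Or.inr ⟨hOC, a2⟩,
        cube_big hm a3⟩
    · exact ⟨v + e, u, t, hOC, hu, a1, Or.inl (by rwa [Function.update_self]), cube_big hm a3⟩
  · intro v' hv' u hu hd
    rcases hO v' hv' with c | rfl
    · have n1 := ne _ (Or.inl c)
      have n2 : v' + u ≠ v + e := fun a => hd (a ▸ hOC.imp_right Or.inl)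
      have hd' : ¬ dt O C (v' + u) := fun a =>
        hd (a.imp (fun a => hO' a) (Or.imp_left fun a => hC a))
      rw [Function.update_of_ne n1]
      refine le_trans ?_ (h.front v' c u hu hd')
      have := Ex_inv (F := F) (E' := EE i0 i1 m E v e (s v) b)
        (A := Arm i0 i1 m v' u (s v') (s v' + 21)) h.q2 h1 h2 ?_
        (fun ω => ind (¬ link ω {o} (cube (cen i0 i1 m (pos v' u (s v' + 21))) (4 * m))))
      · refine le_trans ?_ this.le
        exact Ex_mono hq fun ω _ => ind_mono fun a a' =>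
          a (RR.mono a' (Set.union_subset_union_left _ sub) subset_rfl)
      · have b1 := h.hs v'
        have b2 := h.hs v
        rintro x ((hx | ⟨t, a1, a2, a3⟩) | ⟨u', hu', t, a1, a2, a3⟩) ⟨t', a4, a5, a6⟩
        · exact hx
        · exfalso
          by_cases c' : v = v'
          · subst c'
            exact geoC hu he (by omega) (by omega) n2.symm (near_of hi hm (cube_big hm a3) a6)
          · exact geoS hu he (by omega) (by omega) (by omega) a2 c' n1.symm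
              (near_of hi hm (cube_big hm a3) a6)
        · exact absurd (near_of hi hm (cube_big hm a3) a6)
            (geoA hu hu' (by omega) (by omega) a1 (by omega) n1.symm fun _ => by omega)
    · rw [Function.update_self]
      exact (hnew hv').1 u hu
  · intro v' hv'
    rcases hO v' hv' with c | rfl
    · refine (h.sure v' c).imp_right fun a => le_trans ?_ a
      have := Ex_inv (F := F) (E' := EE i0 i1 m E v e (s v) b) (A := E) h.q2 h1 h2
        (fun _ _ a => a)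
        (fun ω => ind (¬ link ω {o} (cube (cen i0 i1 m (pos v' (1, 0) 0)) (4 * m))))
      rw [Set.union_self] at this
      refine le_trans ?_ this.le
      exact Ex_mono hq fun ω _ => ind_mono fun a a' => a (RR.mono a' sub subset_rfl)
    · exact Or.inr (hnew hv').2

theorem Inv.examine (h : Inv i0 i1 m p F o O C E q s) (hi : i0 ≠ i1) (hm : 0 < m)
    (hp0 : 0 ≤ p) (hp1 : p ≤ 1) (hL : Lat F) (hS : Sh D p m (1 / 2 ^ 120))
    {v e : Z2} (hv : v ∈ O) (he : e ∈ dirs) (hw : ¬ dt O C (v + e))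
    (hF : ∀ u ∈ dirs, ∀ t, 0 ≤ t → t ≤ 2199023255552 →
      ∀ x ∈ cube (cen i0 i1 m (pos (v + e) u t)) (10 * m),
      ∀ y ∈ cube (cen i0 i1 m (pos (v + e) u t)) (10 * m), adj x y → s(x, y) ∈ F)
    (f : Finset (Sym2 (Pt D)) → ℝ) {a b : ℝ} (hab : a ≤ b)
    (ha : ∀ E q s, Inv i0 i1 m p F o (insert (v + e) O) C E q s → Ex F q f ≤ a)
    (hb : ∀ E q s, Inv i0 i1 m p F o O (insert (v + e) C) E q s → Ex F q f ≤ b) :
    Ex F q f ≤ (1 - 1 / 2 ^ 33) * a + 1 / 2 ^ 33 * b := by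
  have hq := h.p01 hp0 hp1
  have b1 := h.hs v
  set K : Finset (Sym2 (Pt D)) → Prop := fun ω => RR ω (E ∪ Arm i0 i1 m v e (s v) 2199023255552) o
    (cube (cen i0 i1 m (pos (v + e) (1, 0) 0)) (4 * m)) with hK
  set EJ : ℕ → Set (Pt D) := fun j => EE i0 i1 m E v e (s v) (21 * j + 21) with hEJ
  set HU : ℕ → Z2 → Finset (Sym2 (Pt D)) → Prop := fun j u ω =>
    RR ω (EJ j ∪ Arm i0 i1 m (v + e) u (21 * j + 21) (21 * j + 21 + 21)) o
      (cube (cen i0 i1 m (pos (v + e) u (21 * j + 21 + 21))) (4 * m)) with hHU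
  have k1 : Ex F q (fun ω => ind (¬ K ω)) ≤ 1 / 2 ^ 35 + 2 ^ 41 * (1 / 2 ^ 120) := by
    obtain ⟨n, hn⟩ := Int.eq_ofNat_of_zero_le (show 0 ≤ 2199023255552 - (s v + 21) by omega)
    have e1 : s v + 21 + n = 2199023255552 := by omega
    have := arm_chain (i0 := i0) (i1 := i1) hS hm hL hq (o := o)
      (W := E ∪ Arm i0 i1 m v e (s v) 2199023255552) (w := v) he (s v + 21) n
      (fun x hx => Or.inr (Arm_mono (by omega) (by omega) hx)) (fun t t1 t2 => by
        rw [pos_rev]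
        exact h.fresh hi hm (neg_dirs he) hw (by omega) (by omega)
          (by rw [add_neg_cancel_right]; omega) (hF _ (neg_dirs he) _ (by omega) (by omega)))
    rw [e1, pos_rev v e 2199023255552, sub_self, pos_zero _ _ (1, 0)] at this
    have a2 : (n : ℝ) ≤ 2 ^ 41 := by exact_mod_cast (show n ≤ 2 ^ 41 by omega)
    refine le_trans (Ex_mono hq fun ω _ => le_trans (ind_mono ?_) (ind_or_le _ _))
      (le_trans (Ex_add _ _ _ _).le (add_le_add (h.front v hv e he hw) (this.trans (by gcongr))))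
    intro c
    by_contra c'
    rw [not_or, not_not, not_and, not_not] at c'
    exact c (c'.2 (c'.1.mono (Set.union_subset_union_right _ (Arm_mono le_rfl (by omega)))
      subset_rfl))
  have k2 : ∀ j < 2 ^ 35, ∀ u ∈ dirs,
      Ex F q (fun ω => ind (K ω ∧ ¬ HU j u ω)) ≤ 2 ^ 41 * (1 / 2 ^ 120) := by
    intro j hj u hu
    have := arm_chain (i0 := i0) (i1 := i1) hS hm hL hq (o := o)
      (W := EJ j ∪ Arm i0 i1 m (v + e) u (21 * j + 21) (21 * j + 21 + 21)) (w := v + e) hu 0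
      (21 * j + 21 + 21) (by
        rintro x ⟨t, t1, t2, t3⟩
        by_cases c : t ≤ 21 * j + 21
        · exact Or.inl (Or.inr ⟨u, hu, t, t1, c, t3⟩)
        · exact Or.inr ⟨t, by omega, by omega, t3⟩) (fun t t1 t2 => by
        have := h.hs (v + e + u)
        exact h.fresh hi hm hu hw t1 (by omega) (by omega) (hF _ hu _ t1 (by omega)))
    have a2 : ((21 * j + 21 + 21 : ℕ) : ℝ) ≤ 2 ^ 41 := by
      exact_mod_cast (show 21 * j + 21 + 21 ≤ 2 ^ 41 by omega)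
    rw [pos_zero _ _ (1, 0), zero_add] at this
    refine le_trans (Ex_mono hq fun ω _ => ind_mono fun c => ⟨?_, ?_⟩) (this.trans (by gcongr))
    · exact c.1.mono (fun x hx => Or.inl (Or.inl hx)) subset_rfl
    · push_cast; exact c.2
  have k3 : Ex F q (fun ω => ind (¬ (K ω ∧ ∀ j < 2 ^ 35, ∀ u ∈ dirs, HU j u ω))) ≤ 2 / 2 ^ 35 := by
    refine le_trans (Ex_mono hq (g := fun ω => ind (¬ K ω) +
      ∑ j ∈ range (2 ^ 35), ∑ u ∈ dirs, ind (K ω ∧ ¬ HU j u ω)) fun ω _ => ?_) ?_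
    · have nn : ∀ j ∈ range (2 ^ 35), 0 ≤ ∑ u ∈ dirs, ind (K ω ∧ ¬ HU j u ω) :=
        fun j _ => sum_nonneg fun _ _ => ind_nonneg _
      by_cases c : K ω
      · by_cases c' : ∀ j < 2 ^ 35, ∀ u ∈ dirs, HU j u ω
        · rw [ind_neg (not_not.2 ⟨c, c'⟩)]
          exact add_nonneg (ind_nonneg _) (sum_nonneg nn)
        · simp only [not_forall] at c'
          obtain ⟨j, hj, u, hu, c'⟩ := c'
          have a1 := single_le_sum nn (mem_range.2 hj)
          have a2 := single_le_sum (f := fun u => ind (K ω ∧ ¬ HU j u ω))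
            (fun _ _ => ind_nonneg _) hu
          rw [ind_pos ⟨c, c'⟩] at a2
          linarith [ind_le_one (¬ (K ω ∧ ∀ j < 2 ^ 35, ∀ u ∈ dirs, HU j u ω)), ind_nonneg (¬ K ω)]
      · rw [ind_pos c]
        linarith [ind_le_one (¬ (K ω ∧ ∀ j < 2 ^ 35, ∀ u ∈ dirs, HU j u ω)), sum_nonneg nn]
    · rw [Ex_add, Ex_sum]
      have := sum_le_card_nsmul (range (2 ^ 35))
        (fun j => Ex F q fun ω => ∑ u ∈ dirs, ind (K ω ∧ ¬ HU j u ω)) (4 * (2 ^ 41 * (1 / 2 ^ 120)))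
        fun j hj => by
          rw [Ex_sum]
          refine (sum_le_card_nsmul _ _ _ (k2 j (mem_range.1 hj))).trans ?_
          rw [show dirs.card = 4 by decide]; simp
      rw [card_range, nsmul_eq_mul] at this
      push_cast at this
      linarith
  obtain ⟨j, hj, k4⟩ := layer (F := F) hq (fun j => ins (EJ j)) (fun j ω => ∀ u ∈ dirs, HU j u ω)
    (fun i j hij ω => forall₂_congr fun u hu => RR_keep (by
      rintro x ((hx | ⟨u', hu', hx⟩) | hx)
      · exact Or.inl hx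
      · exact Or.inr ⟨u', hu', Arm_mono le_rfl (by omega) hx⟩
      · exact Or.inr ⟨u, hu, Arm_mono (by omega) (by omega) hx⟩))
    (2 ^ 35) (by positivity) (δ := 1 / 2 ^ 35) (by positivity)
    (le_trans (Ex_mono hq fun ω _ => ind_mono fun c (c' : K ω ∧ _) => c c'.2) k3)
  set Bad : Finset (Sym2 (Pt D)) → Prop := fun η => 1 / 2 ^ 35 <
    Ex F (upd q (ins (EJ j)) η) (fun ω => ind (¬ ∀ u ∈ dirs, HU j u ω)) with hBad
  have k5 : Ex F q (fun η => ind (¬ (K η ∧ ¬ Bad η))) ≤ 1 / 2 ^ 33 := by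
    refine le_trans (Ex_mono hq fun ω _ => le_trans (ind_mono ?_) (ind_or_le _ _))
      (le_trans (Ex_add _ _ _ _).le (le_trans (add_le_add k3 k4) (by norm_num)))
    intro c
    by_contra c'
    rw [not_or, not_not, not_and] at c'
    exact c ⟨c'.1.1, c'.2 fun i hi => c'.1.2 i (hi.trans hj)⟩
  rw [tower' q (ins (EJ j))]
  refine le_trans (Ex_mono_supp hq (g := fun η => a + (b - a) * ind (¬ (K η ∧ ¬ Bad η)))
    fun η hη h1 h2 => ?_) ?_
  · by_cases c : K η ∧ ¬ Bad η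
    · rw [ind_neg (not_not.2 c), mul_zero, add_zero]
      refine ha _ _ _ (h.step hi hm hp0 hp1 hv he hw (b := 21 * j + 21) (by omega) h1 h2
        (fun x hx => (mem_insert.1 hx).symm) (subset_insert _ _) subset_rfl
        (Or.inl (mem_insert_self _ _)) fun _ => ⟨fun u hu => ?_, ?_⟩)
      · refine le_trans ?_ (not_lt.1 c.2)
        exact Ex_mono (upd_P01 hq _ _) fun ω _ => ind_mono fun a a' => a (a' u hu)
      · rw [Ex_upd_eq hη _ fun ω => ind_congr (not_congr (RR_keep subset_rfl))]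
        exact (ind_neg (not_not.2 (c.1.mono (fun x hx => Or.inl hx) subset_rfl))).le
    · rw [ind_pos c, mul_one, add_sub_cancel]
      exact hb _ _ _ (h.step hi hm hp0 hp1 hv he hw (b := 21 * j + 21) (by omega) h1 h2
        (fun x hx => Or.inl hx) subset_rfl (subset_insert _ _)
        (Or.inr (mem_insert_self _ _)) fun c => absurd (Or.inl c) hw)
  · rw [Ex_add, Ex_const, Ex_mul_left]
    nlinarith [mul_le_mul_of_nonneg_left k5 (sub_nonneg.2 hab)]

end Vale.Agent.P151
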