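import Vale.Agent.P151.Examine

/-! The finite volume conclusion. -/

set_option linter.unusedSectionVars false

namespace Vale.Agent.P151

open Finset

variable {D : ℕ} {i0 i1 : Fin D} {p : ℝ}

theorem inv_init (hi : i0 ≠ i1) {m r : ℤ} (hr0 : 0 ≤ r) (hr : r < m) (hp0 : 0 ≤ p) (hp1 : p ≤ 1)
    (ha : aa p i0 r (7 * m) ≤ 1 / 2 ^ 35) {W : Finset (Pt D)}
    (hW : ∀ x ∈ cube (cen i0 i1 m (0, 21)) (21 * m), x ∈ W) {η : Finset (Sym2 (Pt D))}
    (hη : EF (cubeF (cen i0 i1 m (0, 21)) (11 * m - 1)) ⊆ η) :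
    Inv i0 i1 m p (EF W) (cen i0 i1 m (0, 21)) {(0, 0)} ∅ (cube (cen i0 i1 m (0, 21)) (11 * m - 1))
      (upd (fun _ => p) (ins (cube (cen i0 i1 m (0, 21)) (11 * m - 1))) η) (fun _ => 21) := by
  refine ⟨fun k => by simp; omega, fun e he => by rw [upd, if_neg he], fun e he => ?_,
    fun _ => by omega, fun x hx => ⟨(0, 0), (0, 1), 21, by simp, by decide, by omega,
      Or.inl le_rfl, hx⟩, ?_, fun v hv => Or.inl (mem_singleton.1 hv)⟩
  · rw [upd, if_pos he]
    split_ifs <;> simp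
  intro v hv e he hd
  obtain rfl := mem_singleton.1 hv
  obtain rfl : e = (0, 1) := by
    rcases dirs_cases he with rfl | rfl | rfl | rfl
    · exact absurd (Or.inr (Or.inr (by decide))) hd
    · rfl
    · exact absurd (Or.inr (Or.inr (by decide))) hd
    · exact absurd (Or.inr (Or.inr (by decide))) hd
  set o := cen i0 i1 m (0, 21) with ho
  set x : Pt D := fun k => if k = i1 then 31 * m else -3 * m with hx
  have cc : ∀ (t : ℤ) k, cen i0 i1 m (0, t) k = if k = i1 then m * t else 0 := by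
    intro t k
    by_cases c : k = i0
    · simp [cen, c, hi]
    · simp [cen, c]
  have s1 : cube x (7 * m) ⊆ Arm i0 i1 m (0, 0) (0, 1) 21 (21 + 21) := by
    intro y hy
    refine ⟨31, by omega, by omega, fun k => ?_⟩
    have := hy k
    rw [show pos (0, 0) (0, 1) 31 = (0, 31) by decide, cc]
    simp only [hx, abs_le] at this ⊢
    split_ifs at this ⊢ <;> omega
  have s2 : cube x r ⊆ cube o (11 * m - 1) := by
    intro y hy k
    have := hy k
    rw [ho, cc]
    simp only [hx, abs_le] at this ⊢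
    split_ifs at this ⊢ <;> omega
  have s3 : QF x (7 * m) i1 1 ⊆ cube (cen i0 i1 m (pos (0, 0) (0, 1) (21 + 21))) (4 * m) := by
    rintro y ⟨h1, h2⟩ k
    have := h2 k
    rw [show pos (0, 0) (0, 1) (21 + 21) = (0, 42) by decide, cc]
    simp only [hx, abs_le, Pi.one_apply, Units.val_one, one_mul, if_true] at this h1 ⊢
    split_ifs at this ⊢ with c
    · subst c; omega
    · omega
  have s4 : ∀ y ∈ cube x (7 * m), y ∈ W := by
    intro y hy
    refine hW y fun k => ?_
    have := hy k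
    rw [ho, cc]
    simp only [hx, abs_le] at this ⊢
    split_ifs at this ⊢ <;> omega
  refine le_trans ?_ ha
  rw [← lf_QF p i0 i1 x 1, lf, ← Ex_fresh (fun _ => mem_cubeF) (Lat_EF W) (Fresh_EF W p s4), Ex_upd]
  refine Ex_mono (P01_const hp0 hp1) fun ω hω => ind_mono fun h h' => h ?_
  obtain ⟨a, ha, b, hb, hc⟩ := h'
  refine ⟨o, rfl, b, s3 hb, (cube_conn (c := o) (n := 11 * m - 1) ?_ a (s2 ha)).trans (hc.mono ?_)⟩
  · intro e he
    induction e using Sym2.ind with
    | h y z =>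
      have h1 := mk_mem_EF.1 he
      rw [mem_cubeF, mem_cubeF] at h1
      refine mem_keep.2 ⟨mem_union_left _ (mem_keep.2 ⟨mem_inter.2 ⟨hη he, mk_mem_EF.2
        ⟨⟨hW _ (cube_mono (by omega) h1.1.1), hW _ (cube_mono (by omega) h1.1.2)⟩, h1.2⟩⟩,
        mk_mem_ins.2 h1.1⟩), mk_mem_ins.2 ⟨Or.inl h1.1.1, Or.inl h1.1.2⟩⟩
  · intro e he
    rw [mem_keep] at he
    refine mem_keep.2 ⟨?_, ins_mono (fun y hy => Or.inr (s1 hy)) he.2⟩
    by_cases c : e ∈ ins (cube o (11 * m - 1))
    · refine mem_union_left _ (mem_keep.2 ⟨mem_inter.2 ⟨hη ?_, hω he.1⟩, c⟩)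
      induction e using Sym2.ind with
      | h y z =>
        have h1 := mk_mem_ins.1 c
        exact mk_mem_EF.2 ⟨⟨mem_cubeF.2 h1.1, mem_cubeF.2 h1.2⟩, Lat_EF _ _ _ (hω he.1)⟩
    · exact mem_union_right _ (mem_del.2 ⟨he.1, c⟩)

theorem finite_lower (hi : i0 ≠ i1) {m r : ℤ} (hr0 : 0 ≤ r) (hr : r < m) (hp0 : 0 ≤ p)
    (hp1 : p ≤ 1) (hS : Sh D p m (1 / 2 ^ 120)) (ha : aa p i0 r (7 * m) ≤ 1 / 2 ^ 35) (n : ℕ) :
    uu D p 0 n ≤ 1 - p ^ (EF (cubeF (0 : Pt D) (11 * m - 1))).card / 2 := by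
  have hm : 0 < m := by omega
  set o := cen i0 i1 m (0, 21) with ho
  set W := cubeF o (2199023255552 * (n + 3) * m) with hW
  have hn : (0 : ℤ) ≤ n * m := by positivity
  have hn' : (n : ℤ) ≤ n * m := by nlinarith
  set f : Finset (Sym2 (Pt D)) → ℝ := fun ω => ind (¬ link ω {o} {y | y ∉ cube o (n - 1)}) with hf
  set St : Finset Z2 → Finset Z2 → Set ℝ := fun O C =>
    {a | ∃ E q s, Inv i0 i1 m p (EF W) o O C E q s ∧ a = Ex (EF W) q f} with hSt
  have one : ∀ O C, ∀ a ∈ St O C, a ≤ 1 := by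
    rintro O C _ ⟨E, q, s, h, rfl⟩
    exact Ex_le_const (h.p01 hp0 hp1) fun _ _ => ind_le_one _
  have nn : ∀ O C, 0 ≤ sSup (St O C) := fun O C => Real.sSup_nonneg (by
    rintro _ ⟨E, q, s, h, rfl⟩
    exact Ex_nonneg (h.p01 hp0 hp1) fun _ _ => ind_nonneg _)
  have le : ∀ O C E q s, Inv i0 i1 m p (EF W) o O C E q s → Ex (EF W) q f ≤ sSup (St O C) :=
    fun O C E q s h => le_csSup ⟨1, one O C⟩ ⟨E, q, s, h, rfl⟩
  have key := peierls (n + 1) (fun O C => sSup (St O C)) (1 / 2 ^ 33) (by positivity) le_rfl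
    (fun O C => Real.sSup_le (one O C) zero_le_one) (fun O C ⟨v, hv, hfar⟩ => Real.sSup_le (by
      rintro _ ⟨E, q, s, h, rfl⟩
      simp only [far, le_abs] at hfar
      rcases h.sure v hv with rfl | h1
      · simp only at hfar; omega
      refine le_trans (Ex_mono (h.p01 hp0 hp1) fun ω _ => ind_mono fun c c' => c
        (link.mono c' (keep_subset _ _) subset_rfl fun y hy hy' => ?_)) h1
      have a1 := hy i0
      have a2 := hy' i0
      have a3 := hy i1
      have a4 := hy' i1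
      simp only [ho, cen, pos, if_true, if_neg hi.symm, abs_le] at a1 a2 a3 a4
      push_cast at hfar
      rcases hfar with (c | c) | (c | c) <;> nlinarith [mul_le_mul_of_nonneg_left c hm.le]) le_rfl)
    (fun O C v hv e he hfar hd a b hab h1 h2 => Real.sSup_le (by
      rintro _ ⟨E, q, s, h, rfl⟩
      refine h.examine hi hm hp0 hp1 (Lat_EF W) hS hv he hd (fun u hu t t1 t2 => ?_) f hab
        (fun E q s h => (le _ _ E q s h).trans h1) (fun E q s h => (le _ _ E q s h).trans h2)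
      have : ∀ x ∈ cube (cen i0 i1 m (pos (v + e) u t)) (10 * m), x ∈ W := by
        intro x hx
        refine mem_cubeF.2 fun k => ?_
        have a1 := hx k
        simp only [far, not_or, not_le, abs_lt] at hfar
        have b : ∀ z : ℤ, -(2199023255552 * (n + 2)) ≤ z → z ≤ 2199023255552 * (n + 2) →
            -(2199023255552 * (n + 2) * m) ≤ m * z ∧ m * z ≤ 2199023255552 * (n + 2) * m :=
          fun z z1 z2 => ⟨by nlinarith, by nlinarith⟩
        have b1 := b (pos (v + e) u t).1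
          (by rcases dirs_cases he with rfl | rfl | rfl | rfl <;>
            rcases dirs_cases hu with rfl | rfl | rfl | rfl <;> simp [pos] <;> omega)
          (by rcases dirs_cases he with rfl | rfl | rfl | rfl <;>
            rcases dirs_cases hu with rfl | rfl | rfl | rfl <;> simp [pos] <;> omega)
        have b2 := b (pos (v + e) u t).2
          (by rcases dirs_cases he with rfl | rfl | rfl | rfl <;>
            rcases dirs_cases hu with rfl | rfl | rfl | rfl <;> simp [pos] <;> omega)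
          (by rcases dirs_cases he with rfl | rfl | rfl | rfl <;>
            rcases dirs_cases hu with rfl | rfl | rfl | rfl <;> simp [pos] <;> omega)
        simp only [ho, cen, abs_le] at a1 ⊢
        split_ifs at a1 ⊢ <;> constructor <;> linarith
      exact fun x hx y hy hxy => mk_mem_EF.2 ⟨⟨this x hx, this y hy⟩, hxy⟩)
      (by
        have := (nn _ _).trans h1
        have := (nn _ _).trans h2
        positivity))
  have hp := P01_const (ι := Sym2 (Pt D)) hp0 hp1
  have sW : ∀ a : ℤ, a ≤ 2199023255552 * (n + 3) * m → ∀ x ∈ cube o a, x ∈ W :=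
    fun a h x hx => mem_cubeF.2 (cube_mono h hx)
  rw [← Ex_uu p (c := o) 0 n (sW n (by linarith))]
  refine le_trans (Ex_mono hp (g := f) fun ω hω => ind_mono fun c c' => c ?_) ?_
  · exact (link_exit ((Lat_EF W).mono hω) (by rintro _ rfl k; simp) c' fun t ht => ht).mono
      subset_rfl (by rintro _ rfl k; simp) subset_rfl
  rw [tower' _ (ins (cube o (11 * m - 1)))]
  refine le_trans (Ex_mono hp (g := fun η => 1 - ind (EF (cubeF o (11 * m - 1)) ⊆ η) * (1 / 2))
    fun η _ => ?_) (le_of_eq ?_)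
  · by_cases c : EF (cubeF o (11 * m - 1)) ⊆ η
    · rw [ind_pos c]
      linarith [le _ _ _ _ _ (inv_init hi hr0 hr hp0 hp1 ha (sW _ (by linarith)) c)]
    · rw [ind_neg c, zero_mul, sub_zero]
      exact Ex_le_const (upd_P01 hp _ _) fun _ _ => ind_le_one _
  · rw [Ex_sub, Ex_const, Ex_mul_right, Ex_all, prod_const, card_EF_cube]
    · ring
    · intro e he
      induction e using Sym2.ind with
      | h y z =>
        have h1 := mk_mem_EF.1 he
        rw [mem_cubeF, mem_cubeF] at h1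
        exact mk_mem_EF.2 ⟨⟨sW _ (by linarith) _ h1.1.1, sW _ (by linarith) _ h1.1.2⟩, h1.2⟩

/-- percolation at `p0` forces percolation at some smaller `p` (finite volume form) -/
theorem finite_main (hi : i0 ≠ i1) {p0 θ : ℝ} (h0 : 0 < p0) (h1 : p0 < 1) (hθ : 0 < θ)
    (h : ∀ n : ℕ, uu D p0 0 n ≤ 1 - θ) :
    ∃ p θ', 0 < p ∧ p < p0 ∧ 0 < θ' ∧ ∀ n : ℕ, uu D p 0 n ≤ 1 - θ' := by
  obtain ⟨m, r, hr, p, a1, a2, a3, a4⟩ := exists_shift h0 h1 i0 hθ h (ε := 1 / 2 ^ 120)
    (by positivity) (by norm_num)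
  exact ⟨p, _, a1, a2, by positivity, finite_lower hi (by omega) (by exact_mod_cast hr) a1.le
    (by linarith) a3 (a4.trans (by norm_num))⟩

end Vale.Agent.P151
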