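import Mathlib

/-! An adaptive Peierls argument by boundary tracing on the square lattice. -/

namespace Vale.Agent.P151

open Finset

abbrev Z2 := ℤ × ℤ

def dirs : Finset Z2 := {(1, 0), (0, 1), (-1, 0), (0, -1)}

def lt (h : Z2) : Z2 := (-h.2, h.1)
def rt (h : Z2) : Z2 := (h.2, -h.1)

def nxt (O : Finset Z2) (s : Z2 × Z2) : Z2 × Z2 :=
  if s.1 + s.2 ∉ O then (s.1, lt s.2)
  else if s.1 + s.2 + rt s.2 ∉ O then (s.1 + s.2, s.2) else (s.1 + s.2 + rt s.2, rt s.2)

def prv (O : Finset Z2) (s : Z2 × Z2) : Z2 × Z2 :=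
  if s.1 - s.2 ∉ O then (s.1, rt s.2)
  else if s.1 - s.2 + rt s.2 ∉ O then (s.1 - s.2, s.2) else (s.1 - s.2 + rt s.2, lt s.2)

def Val (O : Finset Z2) (s : Z2 × Z2) : Prop := s.1 ∈ O ∧ s.1 + rt s.2 ∉ O ∧ s.2 ∈ dirs

theorem lt_mem {h : Z2} (hh : h ∈ dirs) : lt h ∈ dirs := by revert h; decide
theorem rt_mem {h : Z2} (hh : h ∈ dirs) : rt h ∈ dirs := by revert h; decide
theorem rt_lt (h : Z2) : rt (lt h) = h := by simp [rt, lt]
theorem lt_rt (h : Z2) : lt (rt h) = h := by simp [rt, lt]
theorem rt_rt (h : Z2) : rt (rt h) = -h := by ext <;> simp [rt]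
theorem lt_eq (h : Z2) : lt h = - rt h := by ext <;> simp [rt, lt]

theorem Val.nxt {O : Finset Z2} {s : Z2 × Z2} (h : Val O s) : Val O (nxt O s) := by
  obtain ⟨h1, h2, h3⟩ := h
  unfold P151.nxt
  split_ifs with c1 c2
  · refine ⟨c2, ?_, rt_mem h3⟩
    have : s.1 + s.2 + rt s.2 + rt (rt s.2) = s.1 + rt s.2 := by rw [rt_rt]; abel
    simpa only [this] using h2
  · exact ⟨c1, c2, h3⟩
  · exact ⟨h1, by simpa only [rt_lt] using c1, lt_mem h3⟩

theorem prv_nxt {O : Finset Z2} {s : Z2 × Z2} (h : Val O s) : prv O (nxt O s) = s := by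
  obtain ⟨h1, h2, h3⟩ := h
  unfold nxt
  split_ifs with c1 c2
  · have e1 : s.1 + s.2 + rt s.2 - rt s.2 = s.1 + s.2 := by abel
    have e2 : s.1 + s.2 + rt (rt s.2) = s.1 := by rw [rt_rt]; abel
    simp only [prv, e1, e2, c1, h1, lt_rt, not_true, if_false]
  · have e1 : s.1 + s.2 - s.2 = s.1 := by abel
    simp only [prv, e1, h1, h2, not_true, if_false, not_false_iff, if_true]
  · have e1 : s.1 - lt s.2 = s.1 + rt s.2 := by rw [lt_eq]; abel
    simp only [prv, e1, h2, rt_lt, not_false_iff, if_true]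

def Fo (x : Z2) : Prop := x.2 < 0 ∨ (x.2 = 0 ∧ x.1 ≠ 0)

instance : DecidablePred Fo := fun x => by unfold Fo; infer_instance

def s0 : Z2 × Z2 := ((0, 0), (0, 1))
def s1 : Z2 × Z2 := ((0, 0), (0, -1))
def s2 : Z2 × Z2 := ((0, 0), (1, 0))

def tr (O : Finset Z2) (i : ℕ) : Z2 × Z2 := (nxt O)^[i] s0

theorem tr_succ (O : Finset Z2) (i : ℕ) : tr O (i + 1) = nxt O (tr O i) :=
  Function.iterate_succ_apply' _ _ _

theorem tr_zero (O : Finset Z2) : tr O 0 = s0 := rfl

def dt (O C : Finset Z2) (x : Z2) : Prop := x ∈ O ∨ x ∈ C ∨ Fo x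

def Det (O C : Finset Z2) (s : Z2 × Z2) : Prop :=
  dt O C (s.1 + s.2) ∧ (s.1 + s.2 ∈ O → dt O C (s.1 + s.2 + rt s.2))

structure Good (O C : Finset Z2) (t : ℕ) : Prop where
  zero : (0, 0) ∈ O
  nf : ∀ x ∈ O, ¬ Fo x
  det : ∀ i < t, Det O C (tr O i)
  ne : ∀ i < t, tr O i ≠ s1

variable {O C : Finset Z2} {t : ℕ}

theorem Good.val (h : Good O C t) (i : ℕ) : Val O (tr O i) := by
  induction i with
  | zero => rw [tr_zero]; exact ⟨h.zero, fun c => h.nf _ c (by decide), by decide⟩
  | succ i ih => rw [tr_succ]; exact ih.nxt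

theorem Good.inj1 (h : Good O C t) {i j : ℕ} (e : tr O (i + 1) = tr O (j + 1)) :
    tr O i = tr O j := by
  rw [← prv_nxt (h.val i), ← prv_nxt (h.val j), ← tr_succ, ← tr_succ, e]

theorem Good.ne2 (h : Good O C t) {i : ℕ} (hi : i ≤ t) : tr O i ≠ s2 := by
  intro e
  rcases i with _ | i
  · rw [tr_zero] at e; exact absurd e (by decide)
  · refine h.ne i (by omega) ?_
    rw [← prv_nxt (h.val i), ← tr_succ, e]
    have : s2.1 - s2.2 ∉ O := fun c => h.nf _ c (by decide)
    rw [prv, if_pos this]; rfl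

theorem Good.ne0 (h : Good O C t) {i : ℕ} (hi : i + 1 ≤ t) : tr O (i + 1) ≠ s0 := by
  intro e
  refine h.ne2 (i := i) (by omega) ?_
  rw [← prv_nxt (h.val i), ← tr_succ, e]
  have : s0.1 - s0.2 ∉ O := fun c => h.nf _ c (by decide)
  rw [prv, if_pos this]; rfl

theorem Good.inj (h : Good O C t) : ∀ i j, i ≤ t → j ≤ t → tr O i = tr O j → i = j := by
  intro i
  induction i with
  | zero =>
    intro j _ hj e
    rcases j with _ | j
    · rfl
    · exact absurd e.symm (h.ne0 hj)
  | succ i ih =>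
    intro j hi hj e
    rcases j with _ | j
    · exact absurd e (h.ne0 hi)
    · rw [ih j (by omega) (by omega) (h.inj1 e)]

def bb (s : Z2 × Z2) : Z2 := s.1 + rt s.2

theorem Good.closed (h : Good O C t) (i : ℕ) (hi : i ≤ t) : bb (tr O i) ∈ C ∨ Fo (bb (tr O i)) := by
  induction i with
  | zero => rw [tr_zero]; exact Or.inr (by decide)
  | succ i ih =>
    have hd := h.det i (by omega)
    rw [tr_succ, nxt]
    split_ifs with c1 c2
    · have : bb ((tr O i).1 + (tr O i).2 + rt (tr O i).2, rt (tr O i).2) = bb (tr O i) := by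
        simp only [bb, rt_rt]; abel
      rw [this]; exact ih (by omega)
    · exact (hd.2 c1).resolve_left c2
    · simp only [bb, rt_lt]
      exact hd.1.resolve_left c1

theorem step_pot (hz : (0, 0) ∈ O) (hnf : ∀ x ∈ O, ¬ Fo x) {s : Z2 × Z2} (hv : Val O s)
    (h1 : s ≠ s1) (h2 : s ≠ s2) (h0 : nxt O s ≠ s0) :
    (bb s).1 - (if s = s0 then 1 else if s = s1 then -1 else 0) + 1 ≤
      (bb (nxt O s)).1 - (if nxt O s = s0 then 1 else if nxt O s = s1 then -1 else 0) +
        2 * ((if Fo (bb s) then 0 else 1) + (if Fo (bb (nxt O s)) then 0 else 1)) := by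
  obtain ⟨⟨x, y⟩, h⟩ := s
  obtain ⟨v1, v2, v3⟩ := hv
  have n1 := hnf _ v1
  rw [if_neg h0, if_neg h1]
  simp only [dirs, mem_insert, mem_singleton] at v3
  unfold nxt at h0 ⊢
  by_cases c1 : ((x, y), h).1 + ((x, y), h).2 ∈ O
  · have n2 := hnf _ c1
    by_cases c2 : ((x, y), h).1 + ((x, y), h).2 + rt ((x, y), h).2 ∈ O
    · have n3 := hnf _ c2
      rw [if_neg (not_not.2 c1), if_neg (not_not.2 c2)]
      have e : bb (((x, y), h).1 + ((x, y), h).2 + rt ((x, y), h).2, rt ((x, y), h).2) =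
          bb ((x, y), h) := by simp only [bb, rt_rt]; abel
      rw [e]
      clear c1 c2 v1 v2 h0 hnf hz e
      rcases v3 with rfl | rfl | rfl | rfl <;>
        simp only [bb, rt, lt, Fo, s0, s1, s2, Prod.mk_add_mk, Prod.mk.injEq, ne_eq] at * <;>
        split_ifs <;> first | omega | (exfalso; simp only [and_true, true_and, and_false] at *; omega)
    · have n3 : ((x, y), h).1 + ((x, y), h).2 + rt ((x, y), h).2 ≠ (0, 0) := fun e => c2 (e ▸ hz)
      rw [if_neg (not_not.2 c1), if_pos c2]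
      clear c1 c2 v1 v2 h0 hnf hz
      rcases v3 with rfl | rfl | rfl | rfl <;>
        simp only [bb, rt, lt, Fo, s0, s1, s2, Prod.mk_add_mk, Prod.mk.injEq, ne_eq] at * <;>
        split_ifs <;> omega
  · rw [if_pos c1]
    rcases v3 with rfl | rfl | rfl | rfl <;>
      simp only [bb, rt, lt, Fo, s0, s1, s2, Prod.mk_add_mk, Prod.mk.injEq, ne_eq] at * <;>
      split_ifs <;> omega

theorem Good.count (h : Good O C t) (e : tr O t = s1) : t ≤ 16 * C.card ∧ 1 ≤ C.card := by
  set g : ℕ → ℤ := fun i => if Fo (bb (tr O i)) then 0 else 1 with hg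
  have key : ∀ i ≤ t, (i : ℤ) ≤ (bb (tr O i)).1 -
      (if tr O i = s0 then 1 else if tr O i = s1 then -1 else 0) +
        2 * (∑ j ∈ range i, g j + ∑ j ∈ range (i + 1), g j) := by
    intro i
    induction i with
    | zero => intro _; simp [hg, tr, s0, bb, rt, Fo]
    | succ i ih =>
      intro hi
      have a1 := ih (by omega)
      have a2 := step_pot h.zero h.nf (h.val i) (h.ne i (by omega)) (h.ne2 (by omega))
        (by rw [← tr_succ]; exact h.ne0 hi)
      rw [← tr_succ] at a2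
      rw [sum_range_succ _ (i + 1), sum_range_succ _ i] at *
      simp only [hg] at *
      push_cast
      omega
  have a1 := key t le_rfl
  rw [e, if_neg (by decide), if_pos rfl] at a1
  have a2 : ∑ j ∈ range t, g j ≤ ∑ j ∈ range (t + 1), g j := by
    rw [sum_range_succ]; simp only [hg]; split_ifs <;> omega
  have a3 : ∑ j ∈ range (t + 1), g j ≤ 4 * C.card := by
    have : ∑ j ∈ range (t + 1), g j =
        (((range (t + 1)).filter fun j => ¬ Fo (bb (tr O j))).card : ℤ) := by
      rw [card_filter]; push_cast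
      exact sum_congr rfl fun j _ => by simp only [hg]; split_ifs <;> rfl
    rw [this]
    have := card_le_card_of_injOn (s := (range (t + 1)).filter fun j => ¬ Fo (bb (tr O j)))
      (t := C ×ˢ dirs) (fun j => (bb (tr O j), (tr O j).2)) (fun j hj => by
        have hj' := mem_filter.1 (mem_coe.1 hj)
        exact mem_coe.2 (mem_product.2 ⟨(h.closed j (by have := mem_range.1 hj'.1; omega)).resolve_right
          hj'.2, (h.val j).2.2⟩)) (fun i hi j hj e => by
        have hi' := mem_range.1 (mem_filter.1 (mem_coe.1 hi)).1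
        have hj' := mem_range.1 (mem_filter.1 (mem_coe.1 hj)).1
        refine h.inj i j (by omega) (by omega) ?_
        have e2 : (tr O i).2 = (tr O j).2 := (Prod.ext_iff.1 e).2
        have e1 : bb (tr O i) = bb (tr O j) := (Prod.ext_iff.1 e).1
        rw [bb, bb, e2] at e1
        exact Prod.ext (add_right_cancel e1) e2)
    rw [card_product, show dirs.card = 4 by decide] at this
    omega
  have a4 : t ≠ 0 := by rintro rfl; rw [tr_zero] at e; exact absurd e (by decide)
  have a5 : (bb s1).1 = -1 := by decide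
  omega

def far (N : ℕ) (v : Z2) : Prop := (N : ℤ) ≤ |v.1| ∨ (N : ℤ) ≤ |v.2|

theorem Good.far (h : Good O C t) (N : ℕ) (ht : 4 * (2 * N + 1) ^ 2 ≤ t) : ∃ v ∈ O, far N v := by
  by_contra c
  push Not at c
  have := card_le_card_of_injOn (s := range (t + 1))
    (t := (Icc (-N : ℤ) N ×ˢ Icc (-N : ℤ) N) ×ˢ dirs) (fun j => tr O j) (fun j _ => by
      have := c _ (h.val j).1
      simp only [P151.far, not_or, not_le, abs_lt] at this
      refine mem_coe.2 (mem_product.2 ⟨mem_product.2 ⟨mem_Icc.2 ?_, mem_Icc.2 ?_⟩, (h.val j).2.2⟩)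
        <;> dsimp only <;> omega)
    (fun i hi j hj e => h.inj i j (by have := mem_range.1 (mem_coe.1 hi); omega)
      (by have := mem_range.1 (mem_coe.1 hj); omega) e)
  rw [card_range, card_product, card_product, show dirs.card = 4 by decide, Int.card_Icc,
    show ((N : ℤ) + 1 - -N).toNat = 2 * N + 1 by omega] at this
  nlinarith

theorem Good.ext (h : Good O C t) {O' C' : Finset Z2} (h1 : O ⊆ O') (h2 : C ⊆ C')
    (h3 : ∀ x ∈ O', x ∈ O ∨ ¬ dt O C x) :
    Good O' C' t ∧ tr O' t = tr O t := by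
  have e : ∀ x, dt O C x → (x ∈ O' ↔ x ∈ O) := fun x hx =>
    ⟨fun h => (h3 x h).resolve_right (not_not.2 hx), fun h => h1 h⟩
  have m : ∀ x, dt O C x → dt O' C' x := fun x hx =>
    hx.imp (fun h => h1 h) (Or.imp_left fun h => h2 h)
  have key : ∀ i ≤ t, tr O' i = tr O i := by
    intro i
    induction i with
    | zero => intro _; rfl
    | succ i ih =>
      intro hi
      have hd := h.det i (by omega)
      rw [tr_succ, tr_succ, ih (by omega), nxt, nxt]
      by_cases c : (tr O i).1 + (tr O i).2 ∈ O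
      · simp only [e _ hd.1, e _ (hd.2 c)]
      · simp only [e _ hd.1, c, not_false_iff, if_true]
  refine ⟨⟨h1 h.zero, fun x hx => ?_, fun i hi => ?_, fun i hi => ?_⟩, key t le_rfl⟩
  · exact (h3 x hx).elim (h.nf x) fun c c' => c (Or.inr (Or.inr c'))
  · rw [key i hi.le]
    exact ⟨m _ (h.det i hi).1, fun c => m _ ((h.det i hi).2 ((e _ (h.det i hi).1).1 c))⟩
  · rw [key i hi.le]; exact h.ne i hi

theorem Good.succ (h : Good O C t) (h1 : Det O C (tr O t)) (h2 : tr O t ≠ s1) :
    Good O C (t + 1) :=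
  ⟨h.zero, h.nf, fun i hi => (Nat.lt_succ_iff_lt_or_eq.1 hi).elim (h.det i) fun e => e ▸ h1,
    fun i hi => (Nat.lt_succ_iff_lt_or_eq.1 hi).elim (h.ne i) fun e => e ▸ h2⟩

noncomputable def FF (O C : Finset Z2) : ℝ := 2 ^ (33 * C.card) / 2 ^ (O.card + C.card)

theorem peierls (N : ℕ) (Dv : Finset Z2 → Finset Z2 → ℝ) (ε : ℝ) (hε0 : 0 ≤ ε)
    (hε : ε ≤ 1 / 2 ^ 33)
    (H1 : ∀ O C, Dv O C ≤ 1) (H2 : ∀ O C, (∃ v ∈ O, far N v) → Dv O C ≤ 0)
    (H3 : ∀ O C, ∀ v ∈ O, ∀ e ∈ dirs, ¬ far N v → ¬ dt O C (v + e) → ∀ a b : ℝ, a ≤ b →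
      Dv (insert (v + e) O) C ≤ a → Dv O (insert (v + e) C) ≤ b → Dv O C ≤ (1 - ε) * a + ε * b) :
    Dv {(0, 0)} ∅ ≤ 1 / 2 := by
  have Fpos : ∀ O C, 0 < FF O C := fun O C => by unfold FF; positivity
  have exam : ∀ O C, ∀ v ∈ O, ∀ e ∈ dirs, ¬ dt O C (v + e) →
      Dv (insert (v + e) O) C ≤ FF (insert (v + e) O) C →
      Dv O (insert (v + e) C) ≤ FF O (insert (v + e) C) → Dv O C ≤ FF O C := by
    intro O C v hv e he hd h1 h2
    by_cases c : far N v
    · exact (H2 O C ⟨v, hv, c⟩).trans (Fpos _ _).le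
    have e1 : FF (insert (v + e) O) C = FF O C / 2 := by
      unfold FF
      rw [card_insert_of_notMem fun h => hd (Or.inl h)]
      field_simp; ring
    have e2 : FF O (insert (v + e) C) = FF O C * 2 ^ 32 := by
      unfold FF
      rw [card_insert_of_notMem fun h => hd (Or.inr (Or.inl h))]
      field_simp; ring
    have := Fpos O C
    refine (H3 O C v hv e he c hd _ _ (by rw [e1, e2]; nlinarith) h1 h2).trans ?_
    rw [e1, e2]
    nlinarith [mul_le_mul_of_nonneg_right hε this.le, mul_nonneg hε0 this.le]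
  have main : ∀ k t O C, t + k = 4 * (2 * N + 1) ^ 2 → Good O C t → O.card + C.card ≤ 2 * t + 1 →
      Dv O C ≤ FF O C := by
    intro k
    induction k with
    | zero => intro t O C e h _; exact (H2 O C (h.far N (by omega))).trans (Fpos _ _).le
    | succ k ih =>
      intro t O C e h hc
      have fin : ∀ O C, Good O C t → tr O t ≠ s1 → Det O C (tr O t) →
          O.card + C.card ≤ 2 * t + 3 → Dv O C ≤ FF O C :=
        fun O C h h1 h2 h3 => ih (t + 1) O C (by omega) (h.succ h2 h1) (by omega)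
      have two : ∀ O C, Good O C t → tr O t ≠ s1 → dt O C ((tr O t).1 + (tr O t).2) →
          O.card + C.card ≤ 2 * t + 2 → Dv O C ≤ FF O C := by
        intro O C h h1 h2 h3
        by_cases c : Det O C (tr O t)
        · exact fin O C h h1 c (by omega)
        simp only [Det, h2, true_and, Classical.not_imp] at c
        refine exam O C _ c.1 _ (rt_mem (h.val t).2.2) c.2 ?_ ?_
        · obtain ⟨g1, g2⟩ := h.ext (subset_insert _ O) subset_rfl (fun x hx =>
            (mem_insert.1 hx).symm.imp_right fun (e : x = _) => by rw [e]; exact c.2)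
          refine fin _ _ g1 (by rw [g2]; exact h1) ?_ ((add_le_add (card_insert_le _ _) le_rfl).trans (by omega))
          rw [g2]
          exact ⟨Or.inl (mem_insert_of_mem c.1), fun _ => Or.inl (mem_insert_self _ _)⟩
        · obtain ⟨g1, _⟩ := h.ext subset_rfl
            (subset_insert ((tr O t).1 + (tr O t).2 + rt (tr O t).2) C) (fun x hx => Or.inl hx)
          refine fin _ _ g1 h1 ?_ ((add_le_add le_rfl (card_insert_le _ _)).trans (by omega))
          exact ⟨Or.inl c.1, fun _ => Or.inr (Or.inl (mem_insert_self _ _))⟩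
      by_cases c0 : tr O t = s1
      · refine (H1 O C).trans ?_
        have := h.count c0
        unfold FF
        rw [le_div_iff₀ (by positivity), one_mul]
        exact pow_le_pow_right₀ (by norm_num) (by omega)
      by_cases c : dt O C ((tr O t).1 + (tr O t).2)
      · exact two O C h c0 c (by omega)
      refine exam O C _ (h.val t).1 _ (h.val t).2.2 c ?_ ?_
      · obtain ⟨g1, g2⟩ := h.ext (subset_insert _ O) subset_rfl (fun x hx =>
          (mem_insert.1 hx).symm.imp_right fun (e : x = _) => by rw [e]; exact c)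
        refine two _ _ g1 (by rw [g2]; exact c0) ?_ ((add_le_add (card_insert_le _ _) le_rfl).trans (by omega))
        rw [g2]
        exact Or.inl (mem_insert_self _ _)
      · obtain ⟨g1, _⟩ := h.ext subset_rfl
          (subset_insert ((tr O t).1 + (tr O t).2) C) (fun x hx => Or.inl hx)
        exact two _ _ g1 c0 (Or.inr (Or.inl (mem_insert_self _ _)))
          ((add_le_add le_rfl (card_insert_le _ _)).trans (by omega))
  have := main _ 0 {(0, 0)} ∅ (zero_add _)
    ⟨mem_singleton_self _, by simp [Fo], by simp, by simp⟩ (by simp)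
  simpa [FF] using this

end Vale.Agent.P151
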