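import Vale.Agent.P151.Shift
import Vale.Agent.P151.Trace

/-! Geometry of the coarse grid and two general lemmas. -/

set_option linter.unusedSectionVars false

namespace Vale.Agent.P151

open Finset

def pos (w u : Z2) (t : ℤ) : Z2 := (2199023255552 * w.1 + t * u.1, 2199023255552 * w.2 + t * u.2)

def near (z z' : Z2) : Prop :=
  z.1 - z'.1 ≤ 20 ∧ z'.1 - z.1 ≤ 20 ∧ z.2 - z'.2 ≤ 20 ∧ z'.2 - z.2 ≤ 20

theorem dirs_cases {u : Z2} (h : u ∈ dirs) : u = (1, 0) ∨ u = (0, 1) ∨ u = (-1, 0) ∨ u = (0, -1) := by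
  simpa [dirs] using h

theorem neg_dirs {u : Z2} (h : u ∈ dirs) : -u ∈ dirs := by revert u; decide

theorem pos_rev (v e : Z2) (t : ℤ) : pos v e t = pos (v + e) (-e) (2199023255552 - t) := by
  ext <;> simp [pos] <;> ring

theorem pos_zero (w u u' : Z2) : pos w u 0 = pos w u' 0 := by simp [pos]

theorem geoA {w u w' u' : Z2} {t t' : ℤ} (hu : u ∈ dirs) (hu' : u' ∈ dirs) (h1 : 0 ≤ t)
    (h2 : t + 21 ≤ 2199023255552) (h3 : 0 ≤ t') (h4 : t' + 21 ≤ 2199023255552) (h5 : w' ≠ w)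
    (h6 : w' = w + u → t + t' + 21 ≤ 2199023255552) : ¬ near (pos w' u' t') (pos w u t) := by
  obtain ⟨a, b⟩ := w
  obtain ⟨a', b'⟩ := w'
  rcases dirs_cases hu with rfl | rfl | rfl | rfl <;>
  rcases dirs_cases hu' with rfl | rfl | rfl | rfl <;>
  simp only [near, pos, ne_eq, Prod.mk.injEq, Prod.mk_add_mk] at * <;> omega

theorem geoS {w u w' u' : Z2} {t t' : ℤ} (hu : u ∈ dirs) (hu' : u' ∈ dirs) (h1 : 0 ≤ t)
    (h2 : t + 21 ≤ 2199023255552) (h3 : 0 ≤ t') (h4 : t' ≤ 2199023255552) (h5 : w' ≠ w)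
    (h6 : w' + u' ≠ w) : ¬ near (pos w' u' t') (pos w u t) := by
  obtain ⟨a, b⟩ := w
  obtain ⟨a', b'⟩ := w'
  rcases dirs_cases hu with rfl | rfl | rfl | rfl <;>
  rcases dirs_cases hu' with rfl | rfl | rfl | rfl <;>
  simp only [near, pos, ne_eq, Prod.mk.injEq, Prod.mk_add_mk] at * <;> omega

theorem geoC {w u u' : Z2} {t t' : ℤ} (hu : u ∈ dirs) (hu' : u' ∈ dirs) (h1 : 21 ≤ t)
    (h3 : 0 ≤ t') (h5 : w + u' ≠ w + u) : ¬ near (pos w u' t') (pos w u t) := by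
  obtain ⟨a, b⟩ := w
  rcases dirs_cases hu with rfl | rfl | rfl | rfl <;>
  rcases dirs_cases hu' with rfl | rfl | rfl | rfl <;>
  simp only [near, pos, ne_eq, Prod.mk.injEq, Prod.mk_add_mk] at * <;>
  first | omega | (exfalso; simp at h5)

section general

variable {ι : Type*} [DecidableEq ι]

theorem Ex_upd_eq {F : Finset ι} {q : ι → ℝ} {T : Set ι} {η : Finset ι} (hη : η ⊆ F)
    (g : Finset ι → ℝ) (hg : ∀ ω, g (keep ω T) = g ω) : Ex F (upd q T η) g = g η := by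
  rw [Ex_upd, inter_eq_left.2 hη]
  have : ∀ ω, g (keep η T ∪ del ω T) = g η := fun ω => by rw [← hg, keep_hyb, hg]
  simp only [this, Ex_const]

theorem tower' (q : ι → ℝ) (T : Set ι) (F : Finset ι) (f : Finset ι → ℝ) :
    Ex F q f = Ex F q (fun η => Ex F (upd q T η) f) := tower q T F fun _ => f

theorem sum_first {P : ℕ → Prop} (L : ℕ) :
    ∑ j ∈ range L, ind (∀ i < j, P i) * ind (¬ P j) = ind (¬ ∀ i < L, P i) := by
  induction L with
  | zero => simp [ind]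
  | succ L ih =>
    rw [sum_range_succ, ih]
    have : (∀ i < L + 1, P i) ↔ (∀ i < L, P i) ∧ P L :=
      ⟨fun h => ⟨fun i hi => h i (by omega), h L (by omega)⟩,
        fun h i hi => (Nat.lt_succ_iff_lt_or_eq.1 hi).elim (h.1 i) fun e => e ▸ h.2⟩
    rw [ind_not, ind_not, ind_not, ind_congr this, ind_and]
    ring

theorem layer {F : Finset ι} {q : ι → ℝ} (hq : P01 q) (T : ℕ → Set ι) (H : ℕ → Finset ι → Prop)
    (hH : ∀ i j, i < j → ∀ ω, H i (keep ω (T j)) ↔ H i ω) (L : ℕ) (hL : 0 < L) {δ γ : ℝ}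
    (hδ : 0 < δ) (hγ : Ex F q (fun ω => ind (¬ ∀ i < L, H i ω)) ≤ γ) :
    ∃ j < L, Ex F q (fun η => ind ((∀ i < j, H i η) ∧
      δ < Ex F (upd q (T j) η) (fun ω => ind (¬ H j ω)))) ≤ γ / (δ * L) := by
  have key : ∀ j, δ * Ex F q (fun η => ind ((∀ i < j, H i η) ∧
      δ < Ex F (upd q (T j) η) (fun ω => ind (¬ H j ω)))) ≤
      Ex F q (fun ω => ind (∀ i < j, H i ω) * ind (¬ H j ω)) := by
    intro j
    have e : ∀ ω, ind (∀ i < j, H i (keep ω (T j))) = ind (∀ i < j, H i ω) := fun ω =>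
      ind_congr (forall₂_congr fun i hi => hH i j hi ω)
    have := tower q (T j) F fun a ω => ind (∀ i < j, H i a) * ind (¬ H j ω)
    simp only [e, Ex_mul_left] at this
    rw [this, ← Ex_mul_left]
    refine Ex_mono hq fun η _ => ?_
    have nn : 0 ≤ Ex F (upd q (T j) η) (fun ω => ind (¬ H j ω)) :=
      Ex_nonneg (upd_P01 hq _ _) fun _ _ => ind_nonneg _
    by_cases c : (∀ i < j, H i η) ∧ δ < Ex F (upd q (T j) η) (fun ω => ind (¬ H j ω))
    · rw [ind_pos c, ind_pos c.1]; linarith [c.2]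
    · rw [ind_neg c, mul_zero]; exact mul_nonneg (ind_nonneg _) nn
  have hL' : (0 : ℝ) < L := by exact_mod_cast hL
  obtain ⟨j, hj, h⟩ := exists_le_of_sum_le (s := range L) (nonempty_range_iff.2 hL.ne')
    (f := fun j => Ex F q (fun ω => ind (∀ i < j, H i ω) * ind (¬ H j ω)))
    (g := fun _ => γ / L) (by
      rw [← Ex_sum, sum_const, card_range, nsmul_eq_mul, mul_div_cancel₀ _ hL'.ne']
      simp only [sum_first]
      exact hγ)
  refine ⟨j, mem_range.1 hj, ?_⟩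
  rw [le_div_iff₀ (by positivity)]
  rw [le_div_iff₀ hL'] at h
  nlinarith [mul_le_mul_of_nonneg_right (key j) hL'.le]

end general

theorem Ex_inv {V : Type*} [DecidableEq V] {F η : Finset (Sym2 V)} {q : Sym2 V → ℝ}
    {E E' A : Set V} (h01 : ∀ e ∈ ins E, q e = 0 ∨ q e = 1) (h1 : ∀ i ∈ η, q i ≠ 0)
    (h2 : ∀ i ∈ F, i ∉ η → q i ≠ 1) (h3 : ∀ x ∈ E', x ∈ A → x ∈ E) (g : Finset (Sym2 V) → ℝ) :
    Ex F (upd q (ins E') η) (fun ω => g (keep ω (ins (E ∪ A)))) =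
      Ex F q (fun ω => g (keep ω (ins (E ∪ A)))) := by
  rw [Ex_keep, Ex_keep]
  refine Ex_congr_p _ fun i hi => ?_
  rw [mem_keep] at hi
  unfold upd
  split_ifs with c c'
  · have : i ∈ ins E := fun v hv => (hi.2 v hv).elim id (h3 v (c v hv))
    exact ((h01 i this).resolve_left (h1 i c')).symm
  · have : i ∈ ins E := fun v hv => (hi.2 v hv).elim id (h3 v (c v hv))
    exact ((h01 i this).resolve_right (h2 i hi.1 c')).symm
  · rfl

theorem RR_keep {V : Type*} [DecidableEq V] {ω : Finset (Sym2 V)} {W W' : Set V} {o : V}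
    {T : Set V} (h : W ⊆ W') : RR (keep ω (ins W')) W o T ↔ RR ω W o T := by
  have : keep (keep ω (ins W')) (ins W) = keep ω (ins W) := by
    ext e
    simp only [mem_keep]
    exact ⟨fun a => ⟨a.1.1, a.2⟩, fun a => ⟨⟨a.1, ins_mono h a.2⟩, a.2⟩⟩
  unfold RR
  rw [this]

variable {D : ℕ}

def cen (i0 i1 : Fin D) (m : ℤ) (z : Z2) : Pt D :=
  fun k => if k = i0 then m * z.1 else if k = i1 then m * z.2 else 0

def Arm (i0 i1 : Fin D) (m : ℤ) (w u : Z2) (a b : ℤ) : Set (Pt D) :=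
  {x | ∃ t, a ≤ t ∧ t ≤ b ∧ x ∈ cube (cen i0 i1 m (pos w u t)) (10 * m)}

variable {i0 i1 : Fin D} {m : ℤ}

theorem Arm_mono {w u : Z2} {a b a' b' : ℤ} (h1 : a' ≤ a) (h2 : b ≤ b') :
    Arm i0 i1 m w u a b ⊆ Arm i0 i1 m w u a' b' :=
  fun _ ⟨t, h3, h4, h5⟩ => ⟨t, h1.trans h3, h4.trans h2, h5⟩

theorem near_of (hi : i0 ≠ i1) (hm : 0 < m) {z z' : Z2} {x : Pt D}
    (h : x ∈ cube (cen i0 i1 m z) (11 * m - 1)) (h' : x ∈ cube (cen i0 i1 m z') (10 * m)) :
    near z z' := by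
  have a1 := h i0
  have a2 := h' i0
  have a3 := h i1
  have a4 := h' i1
  simp only [cen, if_true, if_neg hi.symm, abs_le] at a1 a2 a3 a4
  have k : ∀ a b : ℤ, m * a - m * b < 21 * m → a - b ≤ 20 := fun a b h => by
    by_contra c
    nlinarith
  exact ⟨k _ _ (by omega), k _ _ (by omega), k _ _ (by omega), k _ _ (by omega)⟩

theorem cen_step (hm : 0 < m) {w u : Z2} (hu : u ∈ dirs) (t : ℤ) (k : Fin D) :
    |cen i0 i1 m (pos w u (t + 1)) k - cen i0 i1 m (pos w u t) k| ≤ m := by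
  rw [abs_le]
  rcases dirs_cases hu with rfl | rfl | rfl | rfl <;> simp only [cen, pos] <;> split_ifs <;>
    constructor <;> linarith

theorem arm_chain {p ε : ℝ} (hS : Sh D p m ε) (hm : 0 < m) {F : Finset (Sym2 (Pt D))}
    {q : Sym2 (Pt D) → ℝ} (hL : Lat F) (hq : P01 q) {o : Pt D} {W : Set (Pt D)} {w u : Z2}
    (hu : u ∈ dirs) (a : ℤ) (n : ℕ) (hW : Arm i0 i1 m w u a (a + n) ⊆ W)
    (hF : ∀ t, a ≤ t → t ≤ a + n → Fresh F q p (cube (cen i0 i1 m (pos w u t)) (10 * m)) ∧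
      o ∉ cube (cen i0 i1 m (pos w u t)) (10 * m)) :
    Ex F q (fun ω => ind (RR ω W o (cube (cen i0 i1 m (pos w u a)) (4 * m)) ∧
      ¬ RR ω W o (cube (cen i0 i1 m (pos w u (a + n))) (4 * m)))) ≤ n * ε := by
  have := fun ω => ind_chain
    (P := fun t : ℕ => RR ω W o (cube (cen i0 i1 m (pos w u (a + t))) (4 * m))) n
  simp only [Nat.cast_zero, add_zero] at this
  refine (Ex_mono hq fun ω _ => this ω).trans ?_
  rw [Ex_sum]
  refine (sum_le_card_nsmul _ _ ε fun t ht => ?_).trans (by simp)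
  have ht' := mem_range.1 ht
  have h := hF (a + t) (by omega) (by omega)
  refine hS F q o W _ _ hL hq (fun k => ?_) (fun x hx => hW ⟨a + t, by omega, by omega, hx⟩) h.1 h.2
  have := cen_step (i0 := i0) (i1 := i1) hm (w := w) hu (a + t) k
  rwa [Nat.cast_succ, ← add_assoc]

end Vale.Agent.P151
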