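import Vale.Agent.P151.Conn

/-! The gluing inequality. -/

set_option linter.unusedSectionVars false

namespace Vale.Agent.P151

open Finset

variable {V : Type*} [DecidableEq V] (F : Finset (Sym2 V)) (p : Sym2 V → ℝ) (o : V)

noncomputable def hh (ys : List (V × ℝ)) (K : Set V) : ℝ :=
  ind (o ∈ K) - (ys.map fun y => y.2 * ind (y.1 ∈ K)).sum

def Zc : Set V → List (V × ℝ) → Prop
  | _, [] => True
  | B, y :: ys => y.1 ∉ B ∧
      Ex F p (fun ω => ind (y.1 ∉ cl ω B) * (hh o ys (cl ω {y.1}) - y.2)) = 0 ∧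
      Zc (insert y.1 B) ys

noncomputable def Fm (f : Set V → ℝ) (x : V) (L : Set V) : ℝ :=
  Ex F p (fun ω => f (cl (del ω (touch L)) {x}))

noncomputable def ft (f : Set V → ℝ) (x : V) (B : Set V) (ω : Finset (Sym2 V)) : ℝ :=
  ind (x ∉ cl ω B) * (f (cl ω {x}) - Fm F p f x (cl ω B))

noncomputable def Psi (f : Set V → ℝ) (x : V) (B : Set V) (Z : Set (Sym2 V)) : ℝ :=
  Ex F p (fun ω => ind (x ∉ cl (del ω Z) B) *
    (f (cl (del ω (touch (cl (del ω Z) B))) {x}) - f (cl (del ω Z) {x})))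

theorem hh_cons (y : V × ℝ) (ys : List (V × ℝ)) (K : Set V) :
    hh o (y :: ys) K = hh o ys K - y.2 * ind (y.1 ∈ K) := by
  simp [hh]; ring

theorem ind_union {U Y : Set V} (h : Disjoint U Y) (v : V) :
    ind (v ∈ U ∪ Y) = ind (v ∈ U) + ind (v ∈ Y) := by
  by_cases c : v ∈ U
  · have : v ∉ Y := Set.disjoint_left.1 h c
    simp [ind, c, this]
  · rw [ind_neg c, zero_add]; exact ind_congr (by simp [c])

theorem hh_union (ys : List (V × ℝ)) {U Y : Set V} (h : Disjoint U Y) :
    hh o ys (U ∪ Y) = hh o ys U + hh o ys Y := by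
  induction ys with
  | nil => simp only [hh, ind_union h]; simp
  | cons y ys ih => simp only [hh_cons, ih, ind_union h]; ring

theorem ft_zero (f : Set V → ℝ) (x : V) (B : Set V) (φ : Set V → ℝ) :
    Ex F p (fun ω => ft F p f x B ω * φ (cl ω B)) = 0 := by
  have := resample_cl p F B (fun L ξ => (ind (x ∉ L) * φ L) * (f (cl ξ {x}) - Fm F p f x L))
  rw [Ex_congr (g := fun ω => ft F p f x B ω * φ (cl ω B))] at this
  · rw [this]
    simp only [Ex_mul_left, Ex_sub, Ex_const, Fm, sub_self, mul_zero]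
  · intro ω _
    unfold ft
    by_cases c : x ∈ cl ω B
    · simp [c]
    · rw [cl_del_single c]; ring

variable {p}

theorem A_nil (hp : P01 p) {f : Set V → ℝ} (hf : Monotone f) (x : V) (B B' : Set V) :
    0 ≤ Ex F p (fun ω => ft F p f x B ω * ind (o ∈ cl ω B' \ cl ω B)) := by
  have := resample_cl p F B (fun L ξ => (ind (x ∉ L) * ind (o ∉ L)) *
    ((f (cl ξ {x}) - Fm F p f x L) * ind (o ∈ cl ξ B')))
  rw [Ex_congr (g := fun ω => ft F p f x B ω * ind (o ∈ cl ω B' \ cl ω B))] at this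
  · rw [this]
    refine Ex_nonneg hp fun η _ => ?_
    rw [Ex_mul_left]
    refine mul_nonneg (mul_nonneg (ind_nonneg _) (ind_nonneg _)) ?_
    refine le_trans (le_of_eq ?_) (harris hp F _ _ ?_ ?_)
    · simp only [Ex_sub, Ex_const, Fm, sub_self, zero_mul]
    · intro a b hab
      exact sub_le_sub_right (hf (cl_mono (del_mono hab subset_rfl) subset_rfl)) _
    · intro a b hab
      exact ind_mono fun h => cl_mono (del_mono hab subset_rfl) subset_rfl h
  · intro ω _
    unfold ft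
    by_cases c : x ∈ cl ω B
    · simp [c]
    · by_cases c' : o ∈ cl ω B
      · simp [c']
      · rw [cl_del_single c]
        have : o ∈ cl (del ω (touch (cl ω B))) B' ↔ o ∈ cl ω B' \ cl ω B := by
          constructor
          · intro h; exact ⟨cl_mono (del_subset _ _) subset_rfl h, c'⟩
          · rintro ⟨⟨b, hb, hc⟩, _⟩
            exact ⟨b, hb, (conn_del c' hc.symm).symm⟩
        rw [ind_congr this, ind_pos c']; ring

theorem Psi_mono (hp : P01 p) {f : Set V → ℝ} (hf : Monotone f) (x : V) (B : Set V) :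
    Monotone (Psi F p f x B) := by
  intro Z Z' hZ
  refine Ex_mono hp fun ω _ => ?_
  have s1 : del ω Z' ⊆ del ω Z := del_mono subset_rfl hZ
  have s2 : cl (del ω Z') B ⊆ cl (del ω Z) B := cl_mono s1 subset_rfl
  by_cases c : x ∈ cl (del ω Z) B
  · rw [ind_neg (not_not.2 c), zero_mul]
    by_cases c' : x ∈ cl (del ω Z') B
    · rw [ind_neg (not_not.2 c'), zero_mul]
    · refine mul_nonneg (ind_nonneg _) (sub_nonneg.2 (hf ?_))
      rw [← cl_del_single c']
      exact cl_mono (del_mono (del_subset _ _) subset_rfl) subset_rfl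
  · rw [ind_pos c, ind_pos (fun h => c (s2 h)), one_mul, one_mul]
    exact sub_le_sub (hf (cl_mono (del_mono subset_rfl (touch_mono s2)) subset_rfl))
      (hf (cl_mono s1 subset_rfl))

theorem Psi_eq (f : Set V → ℝ) (x : V) (B : Set V) (Z : Set (Sym2 V)) :
    Ex F p (fun ω => ft F p f x B (del ω Z)) = - Psi F p f x B Z := by
  have := resample p F (fun η => cl (del η Z) B) touch (cl_local' Z B)
    (fun L ξ => ind (x ∉ L) * f (cl ξ {x}))
  simp only [Ex_mul_left] at this
  unfold Psi ft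
  simp only [mul_sub, Ex_sub, this, Fm]
  ring

def PP (ys : List (V × ℝ)) : Prop :=
  ∀ (B : Set V) (x : V) (m : ℝ), Zc F p o B ((x, m) :: ys) → ∀ f : Set V → ℝ, Monotone f →
    0 ≤ Ex F p (fun ω => ind (x ∉ cl ω B) * f (cl ω {x}) * (hh o ys (cl ω {x}) - m))

def AA (ys : List (V × ℝ)) : Prop :=
  ∀ (B : Set V) (x : V) (B' : Set V), insert x B ⊆ B' → Zc F p o B' ys →
    ∀ f : Set V → ℝ, Monotone f →
      0 ≤ Ex F p (fun ω => ft F p f x B ω * hh o ys (cl ω B' \ cl ω B))

theorem A_cons (hp : P01 p) (y : V × ℝ) (ys : List (V × ℝ)) (hA : AA F o (p := p) ys)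
    (hP : PP F o (p := p) ys) : AA F o (p := p) (y :: ys) := by
  intro B x B' hB hZ f hf
  have hBB : B ⊆ B' := (Set.subset_insert _ _).trans hB
  have h1 := hA B x (insert y.1 B') (hB.trans (Set.subset_insert _ _)) hZ.2.2 f hf
  have h2 := hP B' y.1 y.2 hZ (fun Y => Psi F p f x B (touch Y))
    (fun _ _ h => Psi_mono F hp hf x B (touch_mono h))
  have h3 := ft_zero F p f x B (fun L => y.2 * ind (y.1 ∉ L))
  have h4 := resample_cl p F {y.1}
    (fun Y ξ => (ind (∀ b ∈ B', b ∉ Y) * (hh o ys Y - y.2)) * ft F p f x B ξ)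
  simp only [Ex_mul_left, Psi_eq] at h4
  have h5 : Ex F p (fun ω => ft F p f x B ω *
      (ind (y.1 ∉ cl ω B') * (hh o ys (cl ω {y.1}) - y.2))) ≤ 0 := by
    rw [Ex_congr (g := fun η => ind (∀ b ∈ B', b ∉ cl η {y.1}) * (hh o ys (cl η {y.1}) - y.2) *
      ft F p f x B (del η (touch (cl η {y.1})))), h4]
    · rw [← neg_nonneg, ← Ex_neg]
      refine h2.trans (le_of_eq (Ex_congr fun ω _ => ?_))
      rw [ind_congr notMem_cl_iff]; ring
    · intro ω _
      rw [ind_congr notMem_cl_iff]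
      by_cases c : ∀ b ∈ B', b ∉ cl ω {y.1}
      · unfold ft
        rw [cl_del (fun b hb => c b (hBB hb)), cl_del_single (c x (hB (Set.mem_insert _ _)))]
        ring
      · simp [ind_neg c]
  have h6 : ∀ ω, hh o (y :: ys) (cl ω B' \ cl ω B) = hh o ys (cl ω (insert y.1 B') \ cl ω B) -
      ind (y.1 ∉ cl ω B') * (hh o ys (cl ω {y.1}) - y.2) - y.2 * ind (y.1 ∉ cl ω B) := by
    intro ω
    rw [hh_cons]
    by_cases c : y.1 ∈ cl ω B'
    · have : cl ω (insert y.1 B') = cl ω B' := by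
        apply Set.Subset.antisymm
        · rintro v ⟨b, rfl | hb, hc⟩
          · exact cl_conn c hc
          · exact ⟨b, hb, hc⟩
        · exact cl_mono subset_rfl (Set.subset_insert _ _)
      rw [this, ind_neg (not_not.2 c), ind_congr (Q := y.1 ∉ cl ω B) (by simp [c])]
      ring
    · have c' : y.1 ∉ cl ω B := fun h => c (cl_mono subset_rfl hBB h)
      have : cl ω (insert y.1 B') \ cl ω B = (cl ω B' \ cl ω B) ∪ cl ω {y.1} := by
        ext v
        constructor
        · rintro ⟨⟨b, rfl | hb, hc⟩, hv⟩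
          · exact Or.inr (mem_cl_single.2 hc)
          · exact Or.inl ⟨⟨b, hb, hc⟩, hv⟩
        · rintro (⟨h, hv⟩ | h)
          · exact ⟨cl_mono subset_rfl (Set.subset_insert _ _) h, hv⟩
          · exact ⟨⟨_, Or.inl rfl, mem_cl_single.1 h⟩,
              fun hv => c' (cl_conn hv (mem_cl_single.1 h).symm)⟩
      rw [this, hh_union, ind_pos c, ind_pos c', ind_neg (fun h => c h.1)]
      · ring
      · exact Set.disjoint_left.2 fun v hv hv' => c (cl_conn hv.1 (mem_cl_single.1 hv').symm)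
  simp only [h6, mul_sub, Ex_sub] at h5 ⊢
  linarith

noncomputable def Tm (f : Set V → ℝ) (x : V) (B : Set V) (K : Set V) : ℝ :=
  Ex F p (fun ω => Fm F p f x (cl (del ω (touch K)) B))

theorem Fm_anti (hp : P01 p) {f : Set V → ℝ} (hf : Monotone f) (x : V) :
    Antitone (Fm F p f x) := fun _ _ h =>
  Ex_mono hp fun _ _ => hf (cl_mono (del_mono subset_rfl (touch_mono h)) subset_rfl)

theorem Tm_mono (hp : P01 p) {f : Set V → ℝ} (hf : Monotone f) (x : V) (B : Set V) :
    Monotone (Tm F (p := p) f x B) := fun _ _ h =>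
  Ex_mono hp fun _ _ => Fm_anti F hp hf x
    (cl_mono (del_mono subset_rfl (touch_mono h)) subset_rfl)

theorem Tm_osc (hp : P01 p) {f : Set V → ℝ} (hf : Monotone f) (x : V) (B : Set V) :
    Tm F (p := p) f x B Set.univ - Tm F (p := p) f x B {x} ≤
      (1 - ∏ i ∈ F, (1 - p i)) * (f Set.univ - f {x}) := by
  have h1 : ∀ L, f {x} ≤ Fm F p f x L := fun L => by
    simpa [Fm] using Ex_mono hp (F := F) (f := fun _ => f {x})
      (g := fun ω => f (cl (del ω (touch L)) {x})) fun ω _ => hf (subset_cl _ _)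
  have h2 : ∀ L, Fm F p f x L ≤ f Set.univ - (∏ i ∈ F, (1 - p i)) * (f Set.univ - f {x}) := by
    intro L
    have := Ex_ge_empty hp (F := F) (f := fun ω => f Set.univ - f (cl (del ω (touch L)) {x}))
      fun ω _ => sub_nonneg.2 (hf (Set.subset_univ _))
    have e : del (∅ : Finset (Sym2 V)) (touch L) = ∅ := by ext; simp
    rw [Ex_sub, Ex_const, e, cl_empty] at this
    unfold Fm
    linarith
  have h3 : Tm F (p := p) f x B Set.univ ≤ _ := Ex_le_const hp fun ω _ => h2 _
  have h4 : f {x} ≤ Tm F (p := p) f x B {x} := by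
    simpa [Tm] using Ex_mono hp (F := F) (f := fun _ => f {x})
      (g := fun ω => Fm F p f x (cl (del ω (touch {x})) B)) fun ω _ => h1 _
  linarith

theorem P_of_A (hp : P01 p) (hp1 : ∀ i, p i < 1) (ys : List (V × ℝ))
    (hA : AA F o (p := p) ys) : PP F o (p := p) ys := by
  intro B x m hZ
  set I : (Set V → ℝ) → ℝ := fun f =>
    Ex F p (fun ω => ind (x ∉ cl ω B) * f (cl ω {x}) * (hh o ys (cl ω {x}) - m)) with hI
  have step : ∀ f : Set V → ℝ, Monotone f → I (Tm F (p := p) f x B) ≤ I f := by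
    intro f hf
    have h1 := hA B x (insert x B) subset_rfl hZ.2.2 f hf
    have h2 := ft_zero F p f x B (fun _ => m)
    have h3 := resample_cl p F {x}
      (fun K ξ => (ind (∀ b ∈ B, b ∉ K) * (hh o ys K - m)) * Fm F p f x (cl ξ B))
    simp only [Ex_mul_left] at h3
    have h4 : I (Tm F (p := p) f x B) =
        Ex F p (fun ω => ind (x ∉ cl ω B) * Fm F p f x (cl ω B) * (hh o ys (cl ω {x}) - m)) := by
      rw [hI]
      dsimp only
      rw [Ex_congr (g := fun η => ind (∀ b ∈ B, b ∉ cl η {x}) * (hh o ys (cl η {x}) - m) *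
        Ex F p fun S => Fm F p f x (cl (del S (touch (cl η {x}))) B)), ← h3]
      · refine Ex_congr fun ω _ => ?_
        rw [ind_congr notMem_cl_iff]
        by_cases c : ∀ b ∈ B, b ∉ cl ω {x}
        · rw [cl_del c]; ring
        · simp [ind_neg c]
      · intro ω _
        rw [ind_congr notMem_cl_iff, Tm]; ring
    have h5 : I f - I (Tm F (p := p) f x B) =
        Ex F p (fun ω => ft F p f x B ω * hh o ys (cl ω (insert x B) \ cl ω B)) -
          Ex F p (fun ω => ft F p f x B ω * m) := by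
      rw [h4, hI, ← Ex_sub, ← Ex_sub]
      refine Ex_congr fun ω _ => ?_
      unfold ft
      by_cases c : x ∈ cl ω B
      · simp [c]
      · have : cl ω (insert x B) \ cl ω B = cl ω {x} := by
          ext v
          constructor
          · rintro ⟨⟨b, rfl | hb, hc⟩, hv⟩
            · exact mem_cl_single.2 hc
            · exact absurd ⟨b, hb, hc⟩ hv
          · intro h
            exact ⟨⟨_, Or.inl rfl, mem_cl_single.1 h⟩,
              fun hv => c (cl_conn hv (mem_cl_single.1 h).symm)⟩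
        rw [this]; ring
    linarith
  set C : ℝ := Ex F p (fun ω => |hh o ys (cl ω {x}) - m|) with hC
  have hC0 : 0 ≤ C := Ex_nonneg hp fun _ _ => abs_nonneg _
  have base : ∀ f : Set V → ℝ, Monotone f → - (C * (f Set.univ - f {x})) ≤ I f := by
    intro f hf
    have h0 := hZ.2.1
    dsimp only at h0
    have : I f = Ex F p (fun ω => ind (x ∉ cl ω B) * (f (cl ω {x}) - f {x}) *
        (hh o ys (cl ω {x}) - m)) + f {x} * 0 := by
      rw [← h0, ← Ex_mul_left, ← Ex_add]
      exact Ex_congr fun ω _ => by ring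
    rw [this, mul_zero, add_zero, hC, ← Ex_mul_right, ← Ex_neg]
    refine Ex_mono hp fun ω _ => ?_
    have a1 : 0 ≤ f (cl ω {x}) - f {x} := sub_nonneg.2 (hf (subset_cl _ _))
    have a2 : f (cl ω {x}) - f {x} ≤ f Set.univ - f {x} :=
      sub_le_sub_right (hf (Set.subset_univ _)) _
    have a3 := neg_abs_le (hh o ys (cl ω {x}) - m)
    have a4 := abs_nonneg (hh o ys (cl ω {x}) - m)
    by_cases c : x ∈ cl ω B
    · rw [ind_neg (not_not.2 c)]
      nlinarith
    · rw [ind_pos c]
      nlinarith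
  set c0 : ℝ := ∏ i ∈ F, (1 - p i) with hc0
  have c0pos : 0 < c0 := prod_pos fun i _ => sub_pos.2 (hp1 i)
  have c0le : c0 ≤ 1 := prod_le_one (fun i _ => (sub_pos.2 (hp1 i)).le)
    fun i _ => by linarith [(hp i).1]
  have it : ∀ n : ℕ, ∀ f : Set V → ℝ, Monotone f →
      - (C * ((1 - c0) ^ n * (f Set.univ - f {x}))) ≤ I f := by
    intro n
    induction n with
    | zero => intro f hf; simpa using base f hf
    | succ n ih =>
      intro f hf
      refine le_trans ?_ ((ih _ (Tm_mono F hp hf x B)).trans (step f hf))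
      have := Tm_osc F hp hf x B
      rw [neg_le_neg_iff, pow_succ, mul_assoc]
      exact mul_le_mul_of_nonneg_left
        (mul_le_mul_of_nonneg_left this (pow_nonneg (by linarith) _)) hC0
  intro f hf
  have lim : Filter.Tendsto (fun n : ℕ => - (C * ((1 - c0) ^ n * (f Set.univ - f {x}))))
      Filter.atTop (nhds (- (C * (0 * (f Set.univ - f {x}))))) :=
    (((tendsto_pow_atTop_nhds_zero_of_lt_one (by linarith) (by linarith)).mul_const _).const_mul
      _).neg
  simpa using le_of_tendsto' lim fun n => it n f hf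

theorem PP_all (hp : P01 p) (hp1 : ∀ i, p i < 1) (ys : List (V × ℝ)) : PP F o (p := p) ys := by
  have : AA F o (p := p) ys := by
    induction ys with
    | nil =>
      intro B x B' _ _ f hf
      simpa [hh] using A_nil F o hp hf x B B'
    | cons y ys ih => exact A_cons F o hp y ys ih (P_of_A F o hp hp1 ys ih)
  exact P_of_A F o hp hp1 ys this

theorem Zc_notMem : ∀ (ys : List (V × ℝ)) (B : Set V), Zc F p o B ys → ∀ y ∈ ys, y.1 ∉ B
  | [], _, _ => by simp
  | y :: ys, B, h => by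
    intro z hz
    rcases List.mem_cons.1 hz with rfl | hz
    · exact h.1
    · exact fun c => Zc_notMem ys _ h.2.2 z hz (Set.mem_insert_of_mem _ c)

theorem coef_nonneg (hp : P01 p) (hp1 : ∀ i, p i < 1) (ys : List (V × ℝ)) (B : Set V) (x : V)
    (m : ℝ) (hZ : Zc F p o B ((x, m) :: ys)) (ho : o ≠ x) : 0 ≤ m := by
  have h1 := PP_all F o hp hp1 ys B x m hZ (fun K => ind (∃ v ∈ K, v ≠ x))
    fun _ _ h => ind_mono fun ⟨v, hv, hv'⟩ => ⟨v, h hv, hv'⟩
  have h0 := hZ.2.1
  dsimp only at h0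
  have hx : hh o ys {x} = 0 := by
    have : ∀ y ∈ ys, y.1 ≠ x := fun y hy c =>
      Zc_notMem F o ys _ hZ.2.2 y hy (c ▸ Set.mem_insert _ _)
    unfold hh
    rw [ind_neg (by simpa using ho), List.sum_eq_zero, sub_zero]
    intro a ha
    obtain ⟨y, hy, rfl⟩ := List.mem_map.1 ha
    rw [ind_neg (by simpa using this y hy), mul_zero]
  have h2 : Ex F p (fun ω => ind (x ∉ cl ω B) * ind (∃ v ∈ cl ω {x}, v ≠ x) *
      (hh o ys (cl ω {x}) - m)) = 0 +
      m * Ex F p (fun ω => ind (x ∉ cl ω B) * ind (¬ ∃ v ∈ cl ω {x}, v ≠ x)) := by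
    rw [← h0, ← Ex_mul_left, ← Ex_add]
    refine Ex_congr fun ω _ => ?_
    by_cases c : ∃ v ∈ cl ω {x}, v ≠ x
    · rw [ind_pos c, ind_neg (not_not.2 c)]; ring
    · have : cl ω {x} = {x} := by
        apply Set.Subset.antisymm
        · intro v hv; by_contra h; exact c ⟨v, hv, h⟩
        · exact subset_cl _ _
      rw [ind_neg c, ind_pos c, this, hx]; ring
  have h3 := Ex_ge_empty hp (F := F)
    (f := fun ω => ind (x ∉ cl ω B) * ind (¬ ∃ v ∈ cl ω {x}, v ≠ x))
    fun ω _ => mul_nonneg (ind_nonneg _) (ind_nonneg _)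
  simp only [cl_empty] at h3
  rw [ind_pos hZ.1, ind_pos (by simp), mul_one, mul_one] at h3
  have c0pos : 0 < ∏ i ∈ F, (1 - p i) := prod_pos fun i _ => sub_pos.2 (hp1 i)
  rw [h2, zero_add] at h1
  exact nonneg_of_mul_nonneg_left h1 (c0pos.trans_le h3)

theorem exists_Zc (hp : P01 p) (hp1 : ∀ i, p i < 1) : ∀ (A : List V) (B : Set V), A.Nodup →
    (∀ a ∈ A, a ∉ B) → ∃ ys : List (V × ℝ), ys.map Prod.fst = A ∧ Zc F p o B ys
  | [], _, _, _ => ⟨[], rfl, trivial⟩
  | a :: A, B, h1, h2 => by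
    obtain ⟨ys, e, hZ⟩ := exists_Zc hp hp1 A (insert a B) (List.nodup_cons.1 h1).2 (by
      intro b hb c
      rcases c with rfl | c
      · exact (List.nodup_cons.1 h1).1 hb
      · exact h2 b (List.mem_cons_of_mem _ hb) c)
    have h3 := Ex_ge_empty hp (F := F) (f := fun ω => ind (a ∉ cl ω B)) fun ω _ => ind_nonneg _
    simp only [cl_empty] at h3
    rw [ind_pos (h2 a (by simp)), mul_one] at h3
    have c0pos : 0 < ∏ i ∈ F, (1 - p i) := prod_pos fun i _ => sub_pos.2 (hp1 i)
    have h4 := (c0pos.trans_le h3).ne'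
    refine ⟨(a, Ex F p (fun ω => ind (a ∉ cl ω B) * hh o ys (cl ω {a})) /
      Ex F p (fun ω => ind (a ∉ cl ω B))) :: ys, by simp [e], h2 a (by simp), ?_, hZ⟩
    simp only [mul_sub, Ex_sub, Ex_mul_right]
    field_simp
    ring

theorem main_ineq (hp : P01 p) (hp1 : ∀ i, p i < 1) {g : Set V → ℝ} (hg : Antitone g) :
    ∀ (ys : List (V × ℝ)) (B : Set V), Zc F p o B ys →
    Ex F p (fun ω => g (cl ω {o}) * ind (o ∈ cl ω {a | a ∈ ys.map Prod.fst} ∧ o ∉ cl ω B)) ≤
      (ys.map fun y => y.2 * Ex F p (fun ω => g (cl ω {y.1}) * ind (y.1 ∉ cl ω B))).sum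
  | [], B, _ => by simp [cl]
  | y :: ys, B, hZ => by
    have ih := main_ineq hp hp1 hg ys _ hZ.2.2
    have h1 := PP_all F o hp hp1 ys B y.1 y.2 hZ (fun K => - g K) hg.neg
    have e1 : Ex F p (fun ω => g (cl ω {o}) *
        ind (o ∈ cl ω {a | a ∈ (y :: ys).map Prod.fst} ∧ o ∉ cl ω B)) =
        Ex F p (fun ω => ind (y.1 ∉ cl ω B) * g (cl ω {y.1}) * ind (o ∈ cl ω {y.1})) +
        Ex F p (fun ω => g (cl ω {o}) *
          ind (o ∈ cl ω {a | a ∈ ys.map Prod.fst} ∧ o ∉ cl ω (insert y.1 B))) := by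
      rw [← Ex_add]
      refine Ex_congr fun ω _ => ?_
      by_cases c : o ∈ cl ω {y.1}
      · have c1 := mem_cl_single.1 c
        rw [ind_pos c, ind_neg (P := _ ∧ o ∉ cl ω (insert y.1 B))
          (fun h => h.2 ⟨_, Set.mem_insert _ _, c1⟩), cl_single_eq c1,
          ind_congr (P := _ ∧ o ∉ cl ω B) (Q := y.1 ∉ cl ω B)]
        · ring
        · exact ⟨fun h c2 => h.2 (cl_conn c2 c1), fun h => ⟨⟨y.1, by simp, c1⟩,
            fun c2 => h (cl_conn c2 c1.symm)⟩⟩
      · rw [ind_neg c, mul_zero, zero_add]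
        congr 1
        refine ind_congr ⟨?_, ?_⟩
        · rintro ⟨⟨b, hb, hc⟩, h2⟩
          refine ⟨⟨b, ?_, hc⟩, ?_⟩
          · rcases List.mem_cons.1 hb with rfl | hb
            · exact absurd (mem_cl_single.2 hc) c
            · exact hb
          · rintro ⟨b, rfl | hb, hc⟩
            · exact c (mem_cl_single.2 hc)
            · exact h2 ⟨b, hb, hc⟩
        · rintro ⟨⟨b, hb, hc⟩, h2⟩
          exact ⟨⟨b, List.mem_cons_of_mem _ hb, hc⟩,
            fun h => h2 (cl_mono subset_rfl (Set.subset_insert _ _) h)⟩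
    have e2 : ∀ zs : List (V × ℝ),
        (zs.map fun z => z.2 * Ex F p (fun ω => g (cl ω {z.1}) * ind (z.1 ∉ cl ω B))).sum =
        (zs.map fun z => z.2 *
          Ex F p (fun ω => g (cl ω {z.1}) * ind (z.1 ∉ cl ω (insert y.1 B)))).sum +
        Ex F p (fun ω => ind (y.1 ∉ cl ω B) * g (cl ω {y.1}) *
          (zs.map fun z => z.2 * ind (z.1 ∈ cl ω {y.1})).sum) := by
      intro zs
      induction zs with
      | nil => simp
      | cons z zs ih =>
        simp only [List.map_cons, List.sum_cons, mul_add, Ex_add, ih]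
        have : z.2 * Ex F p (fun ω => g (cl ω {z.1}) * ind (z.1 ∉ cl ω B)) =
            z.2 * Ex F p (fun ω => g (cl ω {z.1}) * ind (z.1 ∉ cl ω (insert y.1 B))) +
            Ex F p (fun ω => ind (y.1 ∉ cl ω B) * g (cl ω {y.1}) *
              (z.2 * ind (z.1 ∈ cl ω {y.1}))) := by
          rw [← Ex_mul_left, ← Ex_mul_left, ← Ex_add]
          refine Ex_congr fun ω _ => ?_
          by_cases c : z.1 ∈ cl ω {y.1}
          · have c1 := mem_cl_single.1 c
            rw [ind_pos c, ind_neg (P := z.1 ∉ cl ω (insert y.1 B))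
              (fun h => h ⟨_, Set.mem_insert _ _, c1⟩), cl_single_eq c1,
              ind_congr (P := z.1 ∉ cl ω B) (Q := y.1 ∉ cl ω B)]
            · ring
            · exact not_congr ⟨fun h => cl_conn h c1.symm, fun h => cl_conn h c1⟩
          · rw [ind_neg c, ind_congr (P := z.1 ∉ cl ω B) (Q := z.1 ∉ cl ω (insert y.1 B))]
            · ring
            · refine not_congr ⟨fun h => cl_mono subset_rfl (Set.subset_insert _ _) h, ?_⟩
              rintro ⟨b, rfl | hb, hc⟩
              · exact absurd (mem_cl_single.2 hc) c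
              · exact ⟨b, hb, hc⟩
        rw [this]; ring
    have e3 : Ex F p (fun ω => ind (y.1 ∉ cl ω B) * -g (cl ω {y.1}) *
        (hh o ys (cl ω {y.1}) - y.2)) =
        Ex F p (fun ω => ind (y.1 ∉ cl ω B) * g (cl ω {y.1}) *
          (ys.map fun z => z.2 * ind (z.1 ∈ cl ω {y.1})).sum) +
        y.2 * Ex F p (fun ω => g (cl ω {y.1}) * ind (y.1 ∉ cl ω B)) -
        Ex F p (fun ω => ind (y.1 ∉ cl ω B) * g (cl ω {y.1}) * ind (o ∈ cl ω {y.1})) := by
      rw [← Ex_mul_left, ← Ex_add, ← Ex_sub]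
      exact Ex_congr fun ω _ => by unfold hh; ring
    rw [e1, List.map_cons, List.sum_cons, e2 ys]
    linarith

theorem glue0 (hp : P01 p) (hp1 : ∀ i, p i < 1) {g : Set V → ℝ} (hg : Antitone g)
    (A : Finset V) (m : ℝ) (hA : ∀ a ∈ A, Ex F p (fun ω => g (cl ω {a})) ≤ m) (ho : o ∉ A) :
    Ex F p (fun ω => g (cl ω {o}) * ind (o ∈ cl ω A)) ≤
      m * Ex F p (fun ω => ind (o ∈ cl ω A)) := by
  obtain ⟨ys, e, hZ⟩ := exists_Zc F o hp hp1 A.toList ∅ A.nodup_toList (by simp)
  have h1 := main_ineq F o hp hp1 hg ys ∅ hZ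
  have h2 := main_ineq F o hp hp1 (g := fun _ => -1) antitone_const ys ∅ hZ
  have h3 := main_ineq F o hp hp1 (g := fun _ => 1) antitone_const ys ∅ hZ
  have e0 : ∀ ω : Finset (Sym2 V), cl ω ∅ = ∅ := fun ω => by simp [cl]
  have e1 : {a | a ∈ A.toList} = (A : Set V) := by ext; simp
  simp only [e, e0, e1, Set.mem_empty_iff_false, not_false_eq_true, and_true, ind_true, mul_one,
    Ex_const, neg_mul, one_mul, Ex_neg, mul_neg] at h1 h2 h3
  have hn : ∀ (zs : List (V × ℝ)) (B : Set V), Zc F p o B zs → (∀ z ∈ zs, z.1 ∈ A) →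
      (zs.map fun y => y.2 * Ex F p (fun ω => g (cl ω {y.1}))).sum ≤
        m * (zs.map fun y => y.2).sum := by
    intro zs
    induction zs with
    | nil => simp
    | cons z zs ih =>
      intro B hZ hz
      have a1 := ih _ hZ.2.2 fun w hw => hz w (List.mem_cons_of_mem _ hw)
      have a2 := coef_nonneg F o hp hp1 zs B z.1 z.2 hZ fun c => ho (c ▸ hz z (by simp))
      have a3 := mul_le_mul_of_nonneg_left (hA _ (hz z (by simp))) a2
      simp only [List.map_cons, List.sum_cons]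
      linarith
  have h4 := hn ys ∅ hZ fun z hz => by
    have : z.1 ∈ A.toList := e ▸ List.mem_map_of_mem hz
    simpa using this
  have h5 : (ys.map fun y => - y.2).sum = - (ys.map fun y => y.2).sum := by
    clear * -
    induction ys with
    | nil => simp
    | cons y ys ih => simp only [List.map_cons, List.sum_cons, ih]; ring
  have h6 : (ys.map fun y => y.2).sum = Ex F p (fun ω => ind (o ∈ cl ω A)) := by linarith
  rw [← h6]
  linarith

/-- The gluing inequality. -/
theorem glue (hp : P01 p) {g : Set V → ℝ} (hg : Antitone g)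
    (A : Finset V) (m : ℝ) (hA : ∀ a ∈ A, Ex F p (fun ω => g (cl ω {a})) ≤ m) (ho : o ∉ A) :
    Ex F p (fun ω => g (cl ω {o}) * ind (o ∈ cl ω A)) ≤
      m * Ex F p (fun ω => ind (o ∈ cl ω A)) := by
  have hc : ∀ f : Finset (Sym2 V) → ℝ, Filter.Tendsto (fun t : ℝ => Ex F (fun i => t * p i) f)
      (nhdsWithin 1 (Set.Ioo 0 1)) (nhds (Ex F p f)) := by
    intro f
    have := (Ex_continuous F (fun (t : ℝ) i => t * p i) (fun i => by fun_prop) f).tendsto 1
    simp only [one_mul] at this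
    exact this.mono_left nhdsWithin_le_nhds
  have : (nhdsWithin (1 : ℝ) (Set.Ioo 0 1)).NeBot := right_nhdsWithin_Ioo_neBot one_pos
  have key : ∀ ε > 0, Ex F p (fun ω => g (cl ω {o}) * ind (o ∈ cl ω A)) ≤
      (m + ε) * Ex F p (fun ω => ind (o ∈ cl ω A)) := by
    intro ε hε
    refine le_of_tendsto_of_tendsto (hc _) ((hc _).const_mul _) ?_
    have ev : ∀ᶠ t in nhdsWithin (1 : ℝ) (Set.Ioo 0 1),
        ∀ a ∈ A, Ex F (fun i => t * p i) (fun ω => g (cl ω {a})) ≤ m + ε := by
      rw [Filter.eventually_all_finset]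
      intro a ha
      exact (hc _).eventually_le_const (by linarith [hA a ha])
    filter_upwards [ev, self_mem_nhdsWithin] with t h1 h2
    refine glue0 F o (fun i => ⟨mul_nonneg h2.1.le (hp i).1, ?_⟩) (fun i => ?_) hg A _ h1 ho
    · nlinarith [(hp i).1, (hp i).2, h2.1, h2.2]
    · nlinarith [(hp i).1, (hp i).2, h2.1, h2.2]
  refine le_of_forall_pos_le_add fun ε hε => ?_
  have h1 : Ex F p (fun ω => ind (o ∈ cl ω A)) ≤ 1 := Ex_le_const hp fun _ _ => ind_le_one _
  have := key ε hε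
  nlinarith

end Vale.Agent.P151
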