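import Vale.Agent.P151.Glue

/-! The lattice, boxes, symmetries. -/

set_option linter.unusedSectionVars false

namespace Vale.Agent.P151

open Finset

abbrev Pt (D : ℕ) := Fin D → ℤ

variable {D : ℕ}

def adj (x y : Pt D) : Prop := ∃ i, (∀ k, k ≠ i → x k = y k) ∧ |x i - y i| = 1

theorem adj.symm {x y : Pt D} (h : adj x y) : adj y x :=
  let ⟨i, h1, h2⟩ := h; ⟨i, fun k hk => (h1 k hk).symm, by rwa [abs_sub_comm]⟩

theorem adj.le {x y : Pt D} (h : adj x y) (k : Fin D) : |x k - y k| ≤ 1 := by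
  obtain ⟨i, h1, h2⟩ := h
  by_cases c : k = i
  · rw [c, h2]
  · simp [h1 k c]

def box (c w : Pt D) : Set (Pt D) := {x | ∀ i, |x i - c i| ≤ w i}

def cube (c : Pt D) (n : ℤ) : Set (Pt D) := {x | ∀ i, |x i - c i| ≤ n}

noncomputable def boxF (c w : Pt D) : Finset (Pt D) := Fintype.piFinset fun i => Finset.Icc (c i - w i) (c i + w i)

noncomputable def cubeF (c : Pt D) (n : ℤ) : Finset (Pt D) := boxF c fun _ => n

theorem mem_boxF {c w x : Pt D} : x ∈ boxF c w ↔ x ∈ box c w := by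
  simp only [boxF, Fintype.mem_piFinset, mem_Icc, box, Set.mem_ofPred_eq, abs_le]
  exact forall_congr' fun i => by omega

theorem mem_cubeF {c x : Pt D} {n : ℤ} : x ∈ cubeF c n ↔ x ∈ cube c n := mem_boxF

def ins {V : Type*} (W : Set V) : Set (Sym2 V) := {e | ∀ v ∈ e, v ∈ W}

theorem mk_mem_ins {V : Type*} {W : Set V} {x y : V} : s(x, y) ∈ ins W ↔ x ∈ W ∧ y ∈ W := by
  simp [ins]

theorem ins_mono {V : Type*} {W W' : Set V} (h : W ⊆ W') : ins W ⊆ ins W' :=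
  fun _ he v hv => h (he v hv)

def isE (e : Sym2 (Pt D)) : Prop := ∃ x y, e = s(x, y) ∧ adj x y

theorem isE_mk {x y : Pt D} : isE s(x, y) ↔ adj x y := by
  constructor
  · rintro ⟨a, b, h, h'⟩
    rcases Sym2.eq_iff.1 h with ⟨rfl, rfl⟩ | ⟨rfl, rfl⟩
    · exact h'
    · exact h'.symm
  · exact fun h => ⟨x, y, rfl, h⟩

noncomputable def EF (W : Finset (Pt D)) : Finset (Sym2 (Pt D)) := keep W.sym2 {e | isE e}

theorem mk_mem_EF {W : Finset (Pt D)} {x y : Pt D} :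
    s(x, y) ∈ EF W ↔ (x ∈ W ∧ y ∈ W) ∧ adj x y := by
  simp [EF, isE_mk]

def Lat (F : Finset (Sym2 (Pt D))) : Prop := ∀ x y, s(x, y) ∈ F → adj x y

theorem Lat.mono {F F' : Finset (Sym2 (Pt D))} (h : Lat F) (h' : F' ⊆ F) : Lat F' :=
  fun x y hxy => h x y (h' hxy)

theorem Lat_EF (W : Finset (Pt D)) : Lat (EF W) := fun _ _ h => (mk_mem_EF.1 h).2

def Fresh (F : Finset (Sym2 (Pt D))) (q : Sym2 (Pt D) → ℝ) (p : ℝ) (U : Set (Pt D)) : Prop :=
  ∀ x ∈ U, ∀ y ∈ U, adj x y → s(x, y) ∈ F ∧ q s(x, y) = p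

theorem Fresh.mono {F : Finset (Sym2 (Pt D))} {q : Sym2 (Pt D) → ℝ} {p : ℝ} {U U' : Set (Pt D)}
    (h : Fresh F q p U) (h' : U' ⊆ U) : Fresh F q p U' :=
  fun x hx y hy => h x (h' hx) y (h' hy)

theorem keep_ins_eq {F : Finset (Sym2 (Pt D))} {q : Sym2 (Pt D) → ℝ} {p : ℝ}
    {W : Finset (Pt D)} {U : Set (Pt D)} (hW : ∀ x, x ∈ W ↔ x ∈ U) (hL : Lat F)
    (h : Fresh F q p U) : keep F (ins U) = EF W := by
  ext e
  induction e using Sym2.ind with
  | h x y =>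
    rw [mem_keep, mk_mem_ins, mk_mem_EF, hW, hW]
    exact ⟨fun h1 => ⟨h1.2, hL _ _ h1.1⟩, fun h1 => ⟨(h _ h1.1.1 _ h1.1.2 h1.2).1, h1.1⟩⟩

theorem Ex_fresh {F : Finset (Sym2 (Pt D))} {q : Sym2 (Pt D) → ℝ} {p : ℝ}
    {W : Finset (Pt D)} {U : Set (Pt D)} (hW : ∀ x, x ∈ W ↔ x ∈ U) (hL : Lat F)
    (h : Fresh F q p U) (g : Finset (Sym2 (Pt D)) → ℝ) :
    Ex F q (fun ω => g (keep ω (ins U))) = Ex (EF W) (fun _ => p) g := by
  rw [Ex_keep, keep_ins_eq hW hL h]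
  refine Ex_congr_p _ fun e he => ?_
  induction e using Sym2.ind with
  | h x y =>
    rw [mk_mem_EF, hW, hW] at he
    exact (h _ he.1.1 _ he.1.2 he.2).2

theorem Fresh_EF (W : Finset (Pt D)) (p : ℝ) {U : Set (Pt D)} (h : ∀ x ∈ U, x ∈ W) :
    Fresh (EF W) (fun _ => p) p U :=
  fun x hx y hy hxy => ⟨mk_mem_EF.2 ⟨⟨h x hx, h y hy⟩, hxy⟩, rfl⟩

def link {V : Type*} (ω : Finset (Sym2 V)) (S T : Set V) : Prop := ∃ s ∈ S, ∃ t ∈ T, conn ω s t

theorem link.mono {V : Type*} [DecidableEq V] {ω ω' : Finset (Sym2 V)} {S T S' T' : Set V}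
    (h : link ω S T) (h1 : ω ⊆ ω') (h2 : S ⊆ S') (h3 : T ⊆ T') : link ω' S' T' :=
  let ⟨s, hs, t, ht, hc⟩ := h; ⟨s, h2 hs, t, h3 ht, hc.mono h1⟩

noncomputable def lf (p : ℝ) (W : Finset (Pt D)) (S T : Set (Pt D)) : ℝ :=
  Ex (EF W) (fun _ => p) fun ω => ind (¬ link ω S T)

theorem conn_map {V : Type*} [DecidableEq V] (φ : V ≃ V) (ω : Finset (Sym2 V)) {x y : V}
    (h : conn ω x y) :
    conn (ω.map ⟨Sym2.map φ, Sym2.map.injective φ.injective⟩) (φ x) (φ y) := by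
  induction h with
  | refl => exact conn_refl _ _
  | tail _ h ih => exact ih.trans (conn_edge (mem_map.2 ⟨_, h, rfl⟩))

theorem conn_of_map {V : Type*} [DecidableEq V] (φ : V ≃ V) (ω : Finset (Sym2 V)) {x y : V}
    (h : conn (ω.map ⟨Sym2.map φ, Sym2.map.injective φ.injective⟩) x y) :
    conn ω (φ.symm x) (φ.symm y) := by
  induction h with
  | refl => exact conn_refl _ _
  | @tail u v _ h ih =>
    refine ih.trans (conn_edge ?_)
    obtain ⟨e, he, h'⟩ := mem_map.1 h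
    have : e = s(φ.symm u, φ.symm v) := Sym2.map.injective φ.injective (by simpa using h')
    exact this ▸ he

theorem EF_equiv (φ : Pt D ≃ Pt D) (hφ : ∀ x y, adj (φ x) (φ y) ↔ adj x y)
    {W W' : Finset (Pt D)} (hW : ∀ x, φ x ∈ W' ↔ x ∈ W) :
    EF W' = (EF W).map ⟨Sym2.map φ, Sym2.map.injective φ.injective⟩ := by
  ext e
  induction e using Sym2.ind with
  | h x y =>
    obtain ⟨x, rfl⟩ := φ.surjective x
    obtain ⟨y, rfl⟩ := φ.surjective y
    have : s(φ x, φ y) = (⟨Sym2.map φ, Sym2.map.injective φ.injective⟩ : _ ↪ _) s(x, y) := rfl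
    rw [mk_mem_EF, this, mem_map', mk_mem_EF, hW, hW, hφ]

theorem lf_equiv (φ : Pt D ≃ Pt D) (hφ : ∀ x y, adj (φ x) (φ y) ↔ adj x y) (p : ℝ)
    {W W' : Finset (Pt D)} {S S' T T' : Set (Pt D)} (hW : ∀ x, φ x ∈ W' ↔ x ∈ W)
    (hS : ∀ x, φ x ∈ S' ↔ x ∈ S) (hT : ∀ x, φ x ∈ T' ↔ x ∈ T) :
    lf p W' S' T' = lf p W S T := by
  unfold lf
  rw [EF_equiv φ hφ hW, Ex_map]
  refine Ex_congr fun ω _ => ind_congr (not_congr ⟨?_, ?_⟩)
  · rintro ⟨s, hs, t, ht, hc⟩
    exact ⟨_, (hS _).1 (by simpa using hs), _, (hT _).1 (by simpa using ht), conn_of_map φ ω hc⟩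
  · rintro ⟨s, hs, t, ht, hc⟩
    exact ⟨_, (hS _).2 hs, _, (hT _).2 ht, conn_map φ ω hc⟩

/-- signed coordinate permutation followed by a translation -/
def sym (c : Pt D) (τ : Equiv.Perm (Fin D)) (σ : Fin D → ℤˣ) : Pt D ≃ Pt D where
  toFun x := fun k => c k + σ k * x (τ k)
  invFun y := fun k => σ (τ.symm k) * (y (τ.symm k) - c (τ.symm k))
  left_inv x := by
    funext k
    rcases Int.units_eq_one_or (σ (τ.symm k)) with h | h <;> simp [h]
  right_inv y := by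
    funext k
    rcases Int.units_eq_one_or (σ k) with h | h <;> simp [h]

theorem sym_apply (c : Pt D) (τ : Equiv.Perm (Fin D)) (σ : Fin D → ℤˣ) (x : Pt D) (k : Fin D) :
    sym c τ σ x k = c k + σ k * x (τ k) := rfl

theorem abs_unit_mul (s : ℤˣ) (a : ℤ) : |(s : ℤ) * a| = |a| := by
  rcases Int.units_eq_one_or s with h | h <;> simp [h]

theorem sym_adj (c : Pt D) (τ : Equiv.Perm (Fin D)) (σ : Fin D → ℤˣ) (x y : Pt D) :
    adj (sym c τ σ x) (sym c τ σ y) ↔ adj x y := by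
  have e : ∀ k, sym c τ σ x k - sym c τ σ y k = σ k * (x (τ k) - y (τ k)) := fun k => by
    simp only [sym_apply]; ring
  have e' : ∀ k, sym c τ σ x k = sym c τ σ y k ↔ x (τ k) = y (τ k) := fun k => by
    rw [← sub_eq_zero, e, ← abs_eq_zero, abs_unit_mul, abs_eq_zero, sub_eq_zero]
  unfold adj
  simp only [e, e', abs_unit_mul]
  constructor
  · rintro ⟨i, h1, h2⟩
    refine ⟨τ i, fun k hk => ?_, h2⟩
    simpa using h1 (τ.symm k) (fun h => hk (by rw [← h]; simp))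
  · rintro ⟨i, h1, h2⟩
    exact ⟨τ.symm i, fun k hk => h1 _ (fun h => hk (by rw [← h]; simp)), by simpa using h2⟩

theorem sym_cube (c : Pt D) (τ : Equiv.Perm (Fin D)) (σ : Fin D → ℤˣ) (n : ℤ) (x : Pt D) :
    sym c τ σ x ∈ cube c n ↔ x ∈ cube 0 n := by
  simp only [cube, Set.mem_ofPred_eq, sym_apply, add_sub_cancel_left, abs_unit_mul, Pi.zero_apply,
    sub_zero]
  exact ⟨fun h i => by simpa using h (τ.symm i), fun h i => h _⟩

def QF (c : Pt D) (n : ℤ) (i : Fin D) (σ : Fin D → ℤˣ) : Set (Pt D) :=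
  {y | σ i * (y i - c i) = n ∧ ∀ k, 0 ≤ σ k * (y k - c k) ∧ σ k * (y k - c k) ≤ n}

def bd (c : Pt D) (n : ℤ) : Set (Pt D) := {y | y ∈ cube c n ∧ y ∉ cube c (n - 1)}

theorem unit_mul_mul (s : ℤˣ) (a : ℤ) : (s : ℤ) * (s * a) = a := by
  rcases Int.units_eq_one_or s with h | h <;> simp [h]

theorem sym_QF (c : Pt D) (i0 i : Fin D) (σ : Fin D → ℤˣ) (n : ℤ) (x : Pt D) :
    sym c (Equiv.swap i0 i) σ x ∈ QF c n i σ ↔ x ∈ QF 0 n i0 1 := by
  simp only [QF, Set.mem_ofPred_eq, sym_apply, add_sub_cancel_left, unit_mul_mul, Pi.zero_apply,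
    sub_zero, Equiv.swap_apply_right, Pi.one_apply, Units.val_one, one_mul]
  exact and_congr_right fun _ =>
    ⟨fun h k => by simpa using h (Equiv.swap i0 i k), fun h k => h _⟩

noncomputable def aa (p : ℝ) (i0 : Fin D) (r n : ℤ) : ℝ :=
  lf p (cubeF 0 n) (cube 0 r) (QF 0 n i0 1)

noncomputable def uu (D : ℕ) (p : ℝ) (r n : ℤ) : ℝ :=
  lf p (cubeF (0 : Pt D) n) (cube 0 r) (bd 0 n)

theorem lf_QF (p : ℝ) (i0 i : Fin D) (c : Pt D) (σ : Fin D → ℤˣ) (r n : ℤ) :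
    lf p (cubeF c n) (cube c r) (QF c n i σ) = aa p i0 r n :=
  lf_equiv (sym c (Equiv.swap i0 i) σ) (sym_adj _ _ _) p
    (fun x => by rw [mem_cubeF, mem_cubeF, sym_cube]) (sym_cube _ _ _ _) (sym_QF _ _ _ _ _)

theorem lf_bd (p : ℝ) (c : Pt D) (r n : ℤ) :
    lf p (cubeF c n) (cube c r) (bd c n) = uu D p r n :=
  lf_equiv (sym c 1 1) (sym_adj _ _ _) p
    (fun x => by rw [mem_cubeF, mem_cubeF, sym_cube]) (sym_cube _ _ _ _)
    (fun x => by simp only [bd, Set.mem_ofPred_eq, sym_cube])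

theorem card_EF_cube (c : Pt D) (n : ℤ) : (EF (cubeF c n)).card = (EF (cubeF (0 : Pt D) n)).card := by
  rw [EF_equiv (sym c 1 1) (sym_adj _ _ _) (W := cubeF 0 n)
    (fun x => by rw [mem_cubeF, mem_cubeF, sym_cube]), card_map]

theorem bd_cover {c y : Pt D} {n : ℤ} (h : y ∈ bd c n) : ∃ i σ, y ∈ QF c n i σ := by
  obtain ⟨h1, h2⟩ := h
  simp only [cube, Set.mem_ofPred_eq, not_forall, not_le] at h1 h2
  obtain ⟨i, hi⟩ := h2
  have e : ∀ k, (((if c k ≤ y k then 1 else -1 : ℤˣ)) : ℤ) * (y k - c k) = |y k - c k| := by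
    intro k
    split_ifs with h
    · rw [abs_of_nonneg (by omega)]; simp
    · rw [abs_of_neg (by omega)]; simp
  refine ⟨i, fun k => if c k ≤ y k then 1 else -1, ?_, fun k => ?_⟩
  · rw [e]; have := h1 i; omega
  · rw [e]; exact ⟨abs_nonneg _, h1 k⟩

theorem QF_subset_bd {c : Pt D} {n : ℤ} (i : Fin D) (σ : Fin D → ℤˣ) : QF c n i σ ⊆ bd c n := by
  rintro y ⟨h1, h2⟩
  refine ⟨fun k => ?_, fun h => ?_⟩
  · rw [← abs_unit_mul (σ k), abs_of_nonneg (h2 k).1]; exact (h2 k).2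
  · have := h i
    rw [← abs_unit_mul (σ i), abs_of_nonneg (h2 i).1] at this
    omega

theorem harris_prod {ι α : Type*} [DecidableEq ι] {p : ι → ℝ} (hp : P01 p) (F : Finset ι)
    (A : Finset α) (f : α → Finset ι → ℝ) (hf : ∀ a, Antitone (f a)) (h0 : ∀ a S, 0 ≤ f a S) :
    ∏ a ∈ A, Ex F p (f a) ≤ Ex F p (fun S => ∏ a ∈ A, f a S) := by
  classical
  induction A using Finset.induction_on with
  | empty => simp
  | insert a A h ih =>
    simp only [prod_insert h]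
    refine le_trans (mul_le_mul_of_nonneg_left ih (Ex_nonneg hp fun S _ => h0 a S))
      (harris_anti hp F _ _ (hf a) ?_)
    intro S T hST
    exact prod_le_prod (fun b _ => h0 b _) fun b _ => hf b hST

theorem P01_const {ι : Type*} {p : ℝ} (h0 : 0 ≤ p) (h1 : p ≤ 1) : P01 (fun _ : ι => p) :=
  fun _ => ⟨h0, h1⟩

theorem sqrt_trick {p : ℝ} (h0 : 0 ≤ p) (h1 : p ≤ 1) (i0 : Fin D) (r n : ℤ) :
    aa p i0 r n ^ Fintype.card (Fin D × (Fin D → ℤˣ)) ≤ uu D p r n := by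
  have := harris_prod (P01_const h0 h1) (EF (cubeF (0 : Pt D) n))
    (univ : Finset (Fin D × (Fin D → ℤˣ)))
    (fun a ω => ind (¬ link ω (cube 0 r) (QF 0 n a.1 a.2)))
    (fun a _ _ h => ind_mono fun h1 h2 => h1 (h2.mono h subset_rfl subset_rfl))
    (fun _ _ => ind_nonneg _)
  rw [prod_congr rfl fun a _ => lf_QF p i0 a.1 0 a.2 r n, prod_const, card_univ] at this
  refine this.trans (Ex_mono (P01_const h0 h1) fun ω _ => ?_)
  by_cases c : link ω (cube (0 : Pt D) r) (bd 0 n)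
  · obtain ⟨s, hs, t, ht, hc⟩ := c
    obtain ⟨i, σ, h⟩ := bd_cover ht
    rw [prod_eq_zero (mem_univ (i, σ)) (ind_neg (not_not.2 ⟨s, hs, t, h, hc⟩))]
    exact ind_nonneg _
  · rw [ind_pos c]
    exact prod_le_one (fun _ _ => ind_nonneg _) fun _ _ => ind_le_one _

theorem union_trick {p : ℝ} (h0 : 0 ≤ p) (h1 : p ≤ 1) (i0 : Fin D) (r n : ℤ) :
    1 - uu D p r n ≤ Fintype.card (Fin D × (Fin D → ℤˣ)) * (1 - aa p i0 r n) := by
  have e : ∀ a : Fin D × (Fin D → ℤˣ), 1 - aa p i0 r n =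
      Ex (EF (cubeF (0 : Pt D) n)) (fun _ => p)
        (fun ω => 1 - ind (¬ link ω (cube 0 r) (QF 0 n a.1 a.2))) := fun a => by
    rw [Ex_sub, Ex_const, ← lf_QF p i0 a.1 0 a.2 r n, lf]
  rw [← card_univ, ← nsmul_eq_mul, ← sum_const, sum_congr rfl fun a _ => e a, ← Ex_sum]
  have : 1 - uu D p r n = Ex (EF (cubeF (0 : Pt D) n)) (fun _ => p)
      (fun ω => 1 - ind (¬ link ω (cube 0 r) (bd 0 n))) := by rw [Ex_sub, Ex_const, uu, lf]
  rw [this]
  refine Ex_mono (P01_const h0 h1) fun ω _ => ?_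
  have nn : ∀ a ∈ (univ : Finset (Fin D × (Fin D → ℤˣ))),
      0 ≤ 1 - ind (¬ link ω (cube 0 r) (QF 0 n a.1 a.2)) := fun a _ => sub_nonneg.2 (ind_le_one _)
  by_cases c : link ω (cube (0 : Pt D) r) (bd 0 n)
  · obtain ⟨s, hs, t, ht, hc⟩ := c
    obtain ⟨i, σ, h⟩ := bd_cover ht
    have := single_le_sum nn (mem_univ (i, σ))
    rw [ind_neg (not_not.2 ⟨s, hs, t, h, hc⟩)] at this
    linarith [ind_nonneg (¬ link ω (cube (0 : Pt D) r) (bd 0 n))]
  · rw [ind_pos c, sub_self]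
    exact sum_nonneg nn

theorem exit_cube {ω : Finset (Sym2 (Pt D))} (hL : Lat ω) {c a b : Pt D} {n : ℤ}
    (ha : a ∈ cube c n) (h : conn ω a b) (hb : b ∉ cube c (n - 1)) :
    ∃ y ∈ bd c n, conn (keep ω (ins (cube c n))) a y := by
  have : (∃ y ∈ bd c n, conn (keep ω (ins (cube c n))) a y) ∨
      (b ∈ cube c (n - 1) ∧ conn (keep ω (ins (cube c n))) a b) := by
    clear hb
    induction h with
    | refl =>
      by_cases c' : a ∈ cube c (n - 1)
      · exact Or.inr ⟨c', conn_refl _ _⟩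
      · exact Or.inl ⟨a, ⟨ha, c'⟩, conn_refl _ _⟩
    | @tail u v _ h2 ih =>
      rcases ih with ih | ⟨h3, h4⟩
      · exact Or.inl ih
      · have hv : v ∈ cube c n := fun k => by
          have a1 := h3 k
          have a2 := (hL _ _ h2).le k
          rw [abs_le] at *; omega
        have hu : u ∈ cube c n := fun k => (h3 k).trans (by omega)
        have h5 := h4.trans (conn_edge (mem_keep.2 ⟨h2, mk_mem_ins.2 ⟨hu, hv⟩⟩))
        by_cases c' : v ∈ cube c (n - 1)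
        · exact Or.inr ⟨c', h5⟩
        · exact Or.inl ⟨v, ⟨hv, c'⟩, h5⟩
  exact this.resolve_right fun h => hb h.1

theorem cube_conn {ω : Finset (Sym2 (Pt D))} {c : Pt D} {n : ℤ} (h : EF (cubeF c n) ⊆ ω) :
    ∀ y ∈ cube c n, conn ω c y := by
  have : ∀ (m : ℕ) (y : Pt D), ∑ k, (y k - c k).natAbs = m → y ∈ cube c n → conn ω c y := by
    intro m
    induction m using Nat.strong_induction_on with
    | _ m ih =>
      intro y hm hy
      by_cases e : y = c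
      · rw [e]; exact conn_refl _ _
      · obtain ⟨i, hi⟩ := Function.ne_iff.1 e
        set y' : Pt D := Function.update y i (if c i < y i then y i - 1 else y i + 1) with hy'
        have h1 : ∀ k, k ≠ i → y' k = y k := fun k hk => Function.update_of_ne hk _ _
        have h2 : y' i = if c i < y i then y i - 1 else y i + 1 := Function.update_self _ _ _
        have hy2 : y' ∈ cube c n := by
          intro k
          by_cases hk : k = i
          · have := hy i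
            rw [hk, h2]; rw [abs_le] at *; split_ifs <;> omega
          · rw [h1 k hk]; exact hy k
        refine (ih _ ?_ y' rfl hy2).trans (conn_edge (h (mk_mem_EF.2
          ⟨⟨mem_cubeF.2 hy2, mem_cubeF.2 hy⟩, i, h1, ?_⟩)))
        · rw [← hm]
          refine sum_lt_sum (fun k _ => ?_) ⟨i, mem_univ _, ?_⟩
          · by_cases hk : k = i
            · rw [hk, h2]; split_ifs <;> omega
            · rw [h1 k hk]
          · rw [h2]; split_ifs <;> omega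
        · rw [h2]; split_ifs <;> simp
  exact fun y hy => this _ y rfl hy

end Vale.Agent.P151
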