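import Vale.Agent.P151.Final

/-! Passing between the product measure and finite volume expectations. -/

set_option linter.unusedSectionVars false

namespace Vale.Agent.P151

open Finset MeasureTheory ProbabilityTheory unitInterval

theorem meas_cyl {ι : Type*} [DecidableEq ι] (F S : Finset ι) :
    MeasurableSet {ω : Set ι | keep F ω = S} := by
  by_cases h : S ⊆ F
  · have : {ω : Set ι | keep F ω = S} = ⋂ i ∈ F, {ω : Set ι | i ∈ ω ↔ i ∈ S} := by
      ext ω
      simp only [Set.mem_ofPred_eq, Set.mem_iInter, Finset.ext_iff, mem_keep]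
      exact ⟨fun a i hi => by rw [← a i]; simp [hi],
        fun a i => ⟨fun b => (a i b.1).1 b.2, fun b => ⟨h b, (a i (h b)).2 b⟩⟩⟩
    rw [this]
    refine F.measurableSet_biInter fun i _ => ?_
    by_cases c : i ∈ S
    · simpa [c] using measurableSet_mem i
    · simpa [c] using measurableSet_notMem i
  · have : {ω : Set ι | keep F ω = S} = ∅ :=
      Set.eq_empty_of_forall_notMem fun ω a => h (a ▸ keep_subset F ω)
    rw [this]; exact MeasurableSet.empty

theorem ev_eq {ι : Type*} [DecidableEq ι] (F : Finset ι) (P : Finset ι → Prop) :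
    {ω : Set ι | P (keep F ω)} = ⋃ S ∈ keep F.powerset {S | P S}, {ω : Set ι | keep F ω = S} := by
  ext ω
  simp only [Set.mem_ofPred_eq, Set.mem_iUnion, mem_keep, mem_powerset]
  exact ⟨fun a => ⟨_, ⟨keep_subset _ _, a⟩, rfl⟩, fun ⟨_, a, b⟩ => b ▸ a.2⟩

theorem meas_ev {ι : Type*} [DecidableEq ι] (F : Finset ι) (P : Finset ι → Prop) :
    MeasurableSet {ω : Set ι | P (keep F ω)} := by
  rw [ev_eq]
  exact Finset.measurableSet_biUnion _ fun S _ => meas_cyl F S

theorem real_cyl {ι : Type*} [DecidableEq ι] (u : Set ι) (p : I) {F S : Finset ι}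
    (hF : ∀ i ∈ F, i ∈ u) (h : S ⊆ F) :
    (setBernoulli u p).real {ω : Set ι | keep F ω = S} =
      (∏ _i ∈ S, (p : ℝ)) * ∏ _i ∈ F \ S, (1 - (p : ℝ)) := by
  rw [measureReal_def, setBernoulli_apply']
  have : (fun p : ι → Prop => {i | p i}) ⁻¹' {ω : Set ι | keep F ω = S} =
      Set.pi (↑F) (fun i => {b : Prop | b ↔ i ∈ S}) := by
    ext ω
    simp only [Set.mem_preimage, Set.mem_ofPred_eq, Finset.ext_iff, mem_keep, Set.mem_pi, mem_coe]
    exact ⟨fun a i hi => by rw [← a i]; simp [hi],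
      fun a i => ⟨fun b => (a i b.1).1 b.2, fun b => ⟨h b, (a i (h b)).2 b⟩⟩⟩
  rw [this, Measure.infinitePi_pi _ fun _ _ => MeasurableSet.of_discrete, ENNReal.toReal_prod,
    ← prod_sdiff h, mul_comm]
  congr 1
  · refine prod_congr rfl fun i hi => ?_
    simp [hi, hF i (h hi)]
  · refine prod_congr rfl fun i hi => ?_
    simp [(mem_sdiff.1 hi).2, hF i (mem_sdiff.1 hi).1]

theorem real_ev {ι : Type*} [DecidableEq ι] (u : Set ι) (p : I) {F : Finset ι}
    (hF : ∀ i ∈ F, i ∈ u) (P : Finset ι → Prop) :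
    (setBernoulli u p).real {ω : Set ι | P (keep F ω)} =
      Ex F (fun _ => (p : ℝ)) (fun S => ind (P S)) := by
  classical
  rw [ev_eq, measureReal_biUnion_finset ?_ fun S _ => meas_cyl F S]
  · unfold Ex keep
    rw [sum_filter]
    refine sum_congr rfl fun S hS => ?_
    dsimp only
    by_cases c : P S
    · rw [if_pos (by exact c), ind_pos c, mul_one]
      exact real_cyl u p hF (mem_powerset.1 hS)
    · rw [if_neg (by exact c), ind_neg c, mul_zero]
  · intro S _ T _ hST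
    exact Set.disjoint_left.2 fun ω (a : _ = S) (b : _ = T) => hST (a.symm.trans b)

theorem reach_iff {V : Type*} [DecidableEq V] {ω : Set (Sym2 V)} {x y : V} :
    (SimpleGraph.fromEdgeSet ω).Reachable x y ↔ ∃ η : Finset (Sym2 V), ↑η ⊆ ω ∧ conn η x y := by
  constructor
  · rw [SimpleGraph.reachable_iff_reflTransGen]
    intro h
    induction h with
    | refl => exact ⟨∅, by simp, conn_refl _ _⟩
    | @tail u v _ h ih =>
      obtain ⟨η, h1, h2⟩ := ih
      refine ⟨insert s(u, v) η, ?_, (h2.mono (subset_insert _ _)).trans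
        (conn_edge (mem_insert_self _ _))⟩
      rw [coe_insert]
      exact Set.insert_subset ((SimpleGraph.fromEdgeSet_adj _).1 h).1 h1
  · rintro ⟨η, h1, h2⟩
    induction h2 with
    | refl => rfl
    | @tail u v _ h ih =>
      by_cases c : u = v
      · exact c ▸ ih
      · exact ih.trans ((SimpleGraph.fromEdgeSet_adj _).2 ⟨h1 h, c⟩).reachable

variable {D : ℕ}

theorem adj_iff {x y : Pt D} : ∑ i, |x i - y i| = 1 ↔ adj x y := by
  constructor
  · intro h
    obtain ⟨i, -, hi⟩ := exists_ne_zero_of_sum_ne_zero (h.trans_ne one_ne_zero)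
    rw [← add_sum_erase _ _ (mem_univ i)] at h
    have a1 := abs_pos.2 (abs_ne_zero.1 hi)
    have a2 : 0 ≤ ∑ k ∈ univ.erase i, |x k - y k| := sum_nonneg fun _ _ => abs_nonneg _
    refine ⟨i, fun k hk => ?_, by omega⟩
    have := (sum_eq_zero_iff_of_nonneg fun _ _ => abs_nonneg _).1
      (show ∑ k ∈ univ.erase i, |x k - y k| = 0 by omega) k (by simpa using hk)
    exact sub_eq_zero.1 (abs_eq_zero.1 this)
  · rintro ⟨i, h1, h2⟩
    rw [sum_eq_single i (fun k _ hk => by simp [h1 k hk]) (by simp), h2]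

theorem real_link {u : Set (Sym2 (Pt D))} (hu : ∀ x y, s(x, y) ∈ u ↔ adj x y) (p : I) (c : Pt D)
    (n : ℤ) : (setBernoulli u p).real
      {ω | link (keep (EF (cubeF c n)) ω) (cube c 0) (bd c n)} = 1 - uu D p 0 n := by
  rw [real_ev u p (fun e he => by
      induction e using Sym2.ind with
      | h x y => exact (hu x y).2 (mk_mem_EF.1 he).2) (fun S => link S (cube c 0) (bd c n)),
    ← lf_bd p c, lf]
  simp only [ind_not, Ex_sub, Ex_const]
  ring

theorem to_finite {u : Set (Sym2 (Pt D))} (hu : ∀ x y, s(x, y) ∈ u ↔ adj x y) (p : I)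
    (h : setBernoulli u p
      {ω | ∃ x, {y | (SimpleGraph.fromEdgeSet ω).Reachable x y}.Infinite} ≠ 0) :
    ∃ θ, 0 < θ ∧ ∀ n : ℕ, uu D p 0 n ≤ 1 - θ := by
  rw [Set.ofPred_exists, Ne, measure_iUnion_null_iff, not_forall] at h
  obtain ⟨x, hx⟩ := h
  refine ⟨_, ENNReal.toReal_pos hx (measure_ne_top _ _), fun n => ?_⟩
  rw [le_sub_comm, ← real_link hu p x n]
  refine ENNReal.toReal_mono (measure_ne_top _ _) (measure_mono_ae ?_)
  filter_upwards [setBernoulli_ae_subset (u := u) (p := p)] with ω hω h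
  obtain ⟨y, hy, hy'⟩ := Set.Infinite.exists_notMem_finset h (cubeF x (n - 1))
  obtain ⟨η, h1, h2⟩ := reach_iff.1 hy
  have hL : Lat η := fun a b hab => (hu a b).1 (hω (h1 hab))
  obtain ⟨z, hz, h3⟩ := exit_cube hL (c := x) (n := n) (fun k => by simp) h2
    (fun a => hy' (mem_cubeF.2 a))
  refine ⟨x, fun k => by simp, z, hz, h3.mono fun e he => ?_⟩
  induction e using Sym2.ind with
  | h a b =>
    rw [mem_keep, mk_mem_ins] at he
    exact mem_keep.2 ⟨mk_mem_EF.2 ⟨⟨mem_cubeF.2 he.2.1, mem_cubeF.2 he.2.2⟩, hL _ _ he.1⟩, h1 he.1⟩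

theorem of_finite {u : Set (Sym2 (Pt D))} (hu : ∀ x y, s(x, y) ∈ u ↔ adj x y) (p : I) {θ : ℝ}
    (hθ : 0 < θ) (h : ∀ n : ℕ, uu D p 0 n ≤ 1 - θ) :
    0 < setBernoulli u p {ω | ∃ x, {y | (SimpleGraph.fromEdgeSet ω).Reachable x y}.Infinite} := by
  set A : ℕ → Set (Set (Sym2 (Pt D))) := fun n =>
    {ω | link (keep (EF (cubeF 0 n)) ω) (cube 0 0) (bd 0 n)} with hA
  have mA : ∀ n, MeasurableSet (A n) := fun n =>
    meas_ev _ (fun S => link S (cube 0 0) (bd (0 : Pt D) n))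
  have lim := tendsto_measure_iInter_atTop (μ := setBernoulli u p)
    (s := fun N => ⋃ n ≥ N, A n)
    (fun N => (MeasurableSet.iUnion fun n => MeasurableSet.iUnion fun _ => mA n).nullMeasurableSet)
    (fun N N' hN => Set.biUnion_subset_biUnion_left fun n (hn : N' ≤ n) => hN.trans hn)
    ⟨0, measure_ne_top _ _⟩
  have := ge_of_tendsto' (b := ENNReal.ofReal θ) lim fun N => by
    refine le_trans ?_ (measure_mono (Set.subset_biUnion_of_mem (u := A) (le_refl N)))
    rw [ENNReal.ofReal_le_iff_le_toReal (measure_ne_top _ _), ← measureReal_def, real_link hu]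
    linarith [h N]
  refine ((ENNReal.ofReal_pos.2 hθ).trans_le this).trans_le (measure_mono fun ω hω => ⟨0, ?_⟩)
  intro hfin
  obtain ⟨N, hN⟩ := (hfin.image fun y => ∑ k, (y k).natAbs).bddAbove
  obtain ⟨n, hn, a, ha, b, hb, hc⟩ := Set.mem_iUnion₂.1 (Set.mem_iInter.1 hω (N + 1))
  obtain rfl : a = 0 := funext fun k => by simpa using ha k
  have := hN ⟨b, reach_iff.2 ⟨_, fun e he => (mem_keep.1 he).2, hc⟩, rfl⟩
  refine hb.2 fun k => ?_
  have a1 := single_le_sum (f := fun k => (b k).natAbs) (fun _ _ => Nat.zero_le _) (mem_univ k)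
  simp only [Pi.zero_apply, sub_zero, abs_le] at this a1 ⊢
  omega

theorem finite_one {i0 i1 : Fin D} (hi : i0 ≠ i1) :
    ∃ p θ', 0 < p ∧ p < 1 ∧ 0 < θ' ∧ ∀ n : ℕ, uu D p 0 n ≤ 1 - θ' := by
  set k := (EF (cubeF (0 : Pt D) (10 * 1))).card
  set k' := (EF (cubeF (0 : Pt D) (7 * 1))).card
  have ev : ∀ᶠ p : ℝ in nhds 1, 1 - 1 / 2 ^ 120 < p ^ k ∧ 1 - 1 / 2 ^ 35 < p ^ k' ∧ 0 < p :=
    (((continuous_pow k).tendsto 1).eventually_const_lt (by norm_num)).and
      ((((continuous_pow k').tendsto 1).eventually_const_lt (by norm_num)).and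
        (eventually_gt_nhds one_pos))
  obtain ⟨p, ⟨b1, b2, b3⟩, b4⟩ :=
    ((ev.filter_mono (nhdsWithin_le_nhds (s := Set.Iio 1))).and self_mem_nhdsWithin).exists
  have b4 : p < 1 := b4
  have hp := P01_const (ι := Sym2 (Pt D)) b3.le b4.le
  refine ⟨p, _, b3, b4, by positivity,
    finite_lower hi (m := 1) (r := 0) le_rfl one_pos b3.le b4.le ?_ ?_⟩
  · intro F q o W c c' hL hq hc hW hF _
    refine le_trans (Ex_mono hq (g := fun ω =>
      1 - ind (EF (cubeF c (10 * 1)) ⊆ keep ω (ins (cube c (10 * 1))))) fun ω _ => ?_) ?_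
    · rw [← ind_not]
      refine ind_mono fun ⟨⟨a, ha, b, hb, h⟩, h'⟩ h1 => h' ⟨a, ha, c', fun i => by simp, ?_⟩
      have h2 := cube_conn (h1.trans (keep_mono subset_rfl (ins_mono hW)))
      exact (h.trans (h2 b (cube_mono (by omega) hb)).symm).trans
        (h2 c' fun i => (hc i).trans (by omega))
    · rw [Ex_sub, Ex_const, Ex_fresh (fun _ => mem_cubeF) hL hF
        (fun ω => ind (EF (cubeF c (10 * 1)) ⊆ ω)), Ex_all _ _ _ subset_rfl, prod_const,
        card_EF_cube]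
      exact sub_le_comm.1 b1.le
  · refine le_trans (Ex_mono hp (g := fun ω => 1 - ind (EF (cubeF (0 : Pt D) (7 * 1)) ⊆ ω))
      fun ω _ => ?_) ?_
    · rw [← ind_not]
      refine ind_mono fun h h1 => h ⟨0, fun i => by simp, fun _ => 7, ?_,
        cube_conn h1 _ fun i => by simp⟩
      simp [QF]
    · rw [Ex_sub, Ex_const, Ex_all _ _ _ subset_rfl, prod_const]
      exact sub_le_comm.1 b2.le

theorem uu_zero : 1 ≤ uu D 0 0 (1 : ℕ) := by
  refine le_trans ?_ (Ex_ge_empty (P01_const le_rfl zero_le_one) fun _ _ => ind_nonneg _)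
  rw [ind_pos]
  · simp
  · rintro ⟨a, ha, b, hb, h⟩
    rw [conn_empty h] at ha
    exact hb.2 (by simpa using ha)

theorem main {i0 i1 : Fin D} (hi : i0 ≠ i1) {u : Set (Sym2 (Pt D))}
    (hu : ∀ x y, s(x, y) ∈ u ↔ adj x y) :
    setBernoulli u (sInf {p : I | 0 < setBernoulli u p
      {ω | ∃ x, {y | (SimpleGraph.fromEdgeSet ω).Reachable x y}.Infinite}})
      {ω | ∃ x, {y | (SimpleGraph.fromEdgeSet ω).Reachable x y}.Infinite} = 0 := by
  by_contra c
  obtain ⟨θ, hθ, h⟩ := to_finite hu _ c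
  set p0 := sInf {p : I | 0 < setBernoulli u p
      {ω | ∃ x, {y | (SimpleGraph.fromEdgeSet ω).Reachable x y}.Infinite}}
  have key : ∀ p θ' : ℝ, 0 < p → p < 1 → 0 < θ' → (∀ n : ℕ, uu D p 0 n ≤ 1 - θ') → p0 ≤ p :=
    fun p θ' h0 h1 h2 h3 =>
      (sInf_le (of_finite hu ⟨p, h0.le, h1.le⟩ h2 h3) : p0 ≤ ⟨p, h0.le, h1.le⟩)
  have h1 : (p0 : ℝ) < 1 := by
    obtain ⟨p, θ', a1, a2, a3, a4⟩ := finite_one hi
    exact (key p θ' a1 a2 a3 a4).trans_lt a2
  have h0 : (0 : ℝ) < p0 := by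
    refine lt_of_le_of_ne p0.2.1 fun e => ?_
    have := h 1
    rw [← e] at this
    linarith [uu_zero (D := D)]
  obtain ⟨p, θ', a1, a2, a3, a4⟩ := finite_main hi h0 h1 hθ h
  exact absurd (key p θ' a1 (a2.trans h1) a3 a4) (not_le.2 a2)

end Vale.Agent.P151
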