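import Vale.Agent.P151.Chain

/-! Seeds and the shift lemma. -/

set_option linter.unusedSectionVars false

namespace Vale.Agent.P151

open Finset

variable {D : ℕ}

theorem link_exit {ω : Finset (Sym2 (Pt D))} (hL : Lat ω) {c : Pt D} {n : ℤ} {S T : Set (Pt D)}
    (hS : S ⊆ cube c n) (h : link ω S T) (hT : ∀ t ∈ T, t ∉ cube c (n - 1)) :
    link (keep ω (ins (cube c n))) S (bd c n) := by
  obtain ⟨s, hs, t, ht, hc⟩ := h
  obtain ⟨y, hy, h⟩ := exit_cube hL (hS hs) hc (hT t ht)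
  exact ⟨s, hs, y, hy, h⟩

theorem cube_mono {c : Pt D} {n n' : ℤ} (h : n ≤ n') : cube c n ⊆ cube c n' :=
  fun _ hx i => (hx i).trans h

theorem Ex_uu (p : ℝ) {c : Pt D} {W : Finset (Pt D)} (r n : ℤ) (h : ∀ x ∈ cube c n, x ∈ W) :
    Ex (EF W) (fun _ => p) (fun ω => ind (¬ link (keep ω (ins (cube c n))) (cube c r) (bd c n))) =
      uu D p r n := by
  rw [Ex_fresh (fun _ => mem_cubeF) (Lat_EF W) (Fresh_EF W p h)
    (fun ω => ind (¬ link ω (cube c r) (bd c n))), ← lf_bd p c, lf]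

theorem uu_nonneg {p : ℝ} (h0 : 0 ≤ p) (h1 : p ≤ 1) (r n : ℤ) : 0 ≤ uu D p r n :=
  Ex_nonneg (P01_const h0 h1) fun _ _ => ind_nonneg _

theorem uu_le_one {p : ℝ} (h0 : 0 ≤ p) (h1 : p ≤ 1) (r n : ℤ) : uu D p r n ≤ 1 :=
  Ex_le_const (P01_const h0 h1) fun _ _ => ind_le_one _

theorem uu_square {p : ℝ} (h0 : 0 ≤ p) (h1 : p ≤ 1) (i0 : Fin D) (r n N : ℕ) (hr : r ≤ n)
    (hN : 2 * n + 1 ≤ N) :
    uu D p (2 * n + 1 : ℕ) N ≤
      uu D p r n ^ 2 + 2 * (uu D p r (N + n + 1 : ℕ) - uu D p r n) := by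
  have hp : P01 (fun _ : Sym2 (Pt D) => p) := P01_const h0 h1
  set W := cubeF (0 : Pt D) (N + 2 * n + 2) with hW
  set x1 : Pt D := fun k => if k = i0 then n + 1 else 0 with hx1
  set x2 : Pt D := fun k => if k = i0 then -(n + 1) else 0 with hx2
  have b1 : ∀ k, |x1 k| ≤ n + 1 := fun k => by
    simp only [hx1]; rw [abs_le]; split_ifs <;> omega
  have b2 : ∀ k, |x2 k| ≤ n + 1 := fun k => by
    simp only [hx2]; rw [abs_le]; split_ifs <;> omega
  have sub : ∀ (x : Pt D) (a b : ℤ), (∀ k, |x k| ≤ n + 1) → a + n + 1 ≤ b →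
      cube x a ⊆ cube 0 b := by
    intro x a b hx h y hy k
    have a1 := hx k
    have a2 := hy k
    simp only [Pi.zero_apply, sub_zero]
    rw [abs_le] at *; omega
  have subW : ∀ (x : Pt D) (a : ℤ), (∀ k, |x k| ≤ n + 1) → a ≤ N + n + 1 →
      ∀ y ∈ cube x a, y ∈ W := fun x a hx h y hy => mem_cubeF.2 (sub x a _ hx (by omega) hy)
  set A : Pt D → ℤ → Finset (Sym2 (Pt D)) → Prop := fun x a ω =>
    ¬ link (keep ω (ins (cube x a))) (cube x r) (bd x a) with hA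
  have e0 := Ex_uu p (c := 0) (W := W) (2 * n + 1 : ℕ) N
    (fun y hy => mem_cubeF.2 (cube_mono (by omega) hy))
  have e1 := Ex_uu p r n (subW x1 n b1 (by omega))
  have e2 := Ex_uu p r n (subW x2 n b2 (by omega))
  have e3 := Ex_uu p r (N + n + 1 : ℕ) (subW x1 _ b1 (by omega))
  have e4 := Ex_uu p r (N + n + 1 : ℕ) (subW x2 _ b2 (by omega))
  have e5 := indep (fun _ => p) (ins (cube x1 n)) (EF W)
    (fun ω => ind (¬ link ω (cube x1 r) (bd x1 n))) (fun ω => ind (A x2 n ω))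
  have e6 : ∀ ω : Finset (Sym2 (Pt D)),
      keep (del ω (ins (cube x1 n))) (ins (cube x2 n)) = keep ω (ins (cube x2 n)) := by
    intro ω
    ext e
    induction e using Sym2.ind with
    | h a b =>
      simp only [mem_keep, mem_del, mk_mem_ins]
      refine ⟨fun h => ⟨h.1.1, h.2⟩, fun h => ⟨⟨h.1, fun h' => ?_⟩, h.2⟩⟩
      have a1 := h.2.1 i0
      have a2 := h'.1 i0
      simp only [hx1, hx2, if_true] at a1 a2
      rw [abs_le] at *; omega
  simp only [hA, e6, e1, e2] at e5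
  have pt : ∀ (x : Pt D), (∀ k, |x k| ≤ n + 1) → ∀ ω ⊆ EF W,
      (¬ link (keep ω (ins (cube 0 N))) (cube 0 (2 * n + 1 : ℕ)) (bd 0 N) → A x (N + n + 1 : ℕ) ω) ∧
      (A x n ω → A x (N + n + 1 : ℕ) ω) := by
    intro x hx ω hω
    have hL : Lat (keep ω (ins (cube x (N + n + 1 : ℕ)))) :=
      (Lat_EF W).mono ((keep_subset _ _).trans hω)
    refine ⟨fun h h' => h ?_, fun h h' => h ?_⟩
    · refine (link_exit hL (sub x r N hx (by omega)) h' fun t ht ht' => ht.2 fun k => ?_).mono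
        (keep_mono (keep_subset _ _) subset_rfl) (sub x r _ hx (by omega)) subset_rfl
      have a1 := hx k
      have a2 := ht' k
      simp only [Pi.zero_apply, sub_zero] at a2
      rw [abs_le] at *; omega
    · exact (link_exit hL (cube_mono (by omega)) h'
        fun t ht ht' => ht.2 (cube_mono (by omega) ht')).mono
        (keep_mono (keep_subset _ _) subset_rfl) subset_rfl subset_rfl
  rw [← e0]
  refine (Ex_mono hp (g := fun ω => ind (A x1 n ω) * ind (A x2 n ω) +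
    (ind (A x1 (N + n + 1 : ℕ) ω) - ind (A x1 n ω)) +
    (ind (A x2 (N + n + 1 : ℕ) ω) - ind (A x2 n ω))) fun ω hω => ?_).trans (le_of_eq ?_)
  · have a1 := ind_mono (pt x1 b1 ω hω).2
    have a2 := ind_mono (pt x2 b2 ω hω).2
    have a3 := mul_nonneg (ind_nonneg (A x1 n ω)) (ind_nonneg (A x2 n ω))
    by_cases c : ¬ link (keep ω (ins (cube 0 N))) (cube (0 : Pt D) (2 * n + 1 : ℕ)) (bd 0 N)
    · rw [ind_pos c, ind_pos ((pt x1 b1 ω hω).1 c), ind_pos ((pt x2 b2 ω hω).1 c)]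
      nlinarith [mul_nonneg (sub_nonneg.2 (ind_le_one (A x1 n ω)))
        (sub_nonneg.2 (ind_le_one (A x2 n ω)))]
    · rw [ind_neg c]; linarith
  · simp only [hA, Ex_add, Ex_sub, e1, e2, e3, e4, e5]
    ring

theorem seeds {p θ : ℝ} (h0 : 0 ≤ p) (h1 : p ≤ 1) (i0 : Fin D) (hθ : 0 < θ)
    (h : ∀ n : ℕ, uu D p 0 n ≤ 1 - θ) {δ : ℝ} (hδ : 0 < δ) :
    ∃ r : ℕ, ∀ n : ℕ, r ≤ n → uu D p r n ≤ δ := by
  have step : ∀ t η : ℝ, 0 < η → (∃ r : ℕ, ∀ n : ℕ, r ≤ n → uu D p r n ≤ t) →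
      ∃ r : ℕ, ∀ n : ℕ, r ≤ n → uu D p r n ≤ t ^ 2 + η := by
    rintro t η hη ⟨r, hr⟩
    have bdd : BddAbove (Set.range fun n : ℕ => uu D p r (r + n : ℕ)) :=
      ⟨1, by rintro _ ⟨n, rfl⟩; exact uu_le_one h0 h1 _ _⟩
    obtain ⟨n, hn⟩ := exists_lt_of_lt_ciSup (f := fun n : ℕ => uu D p r (r + n : ℕ))
      (sub_lt_self _ (half_pos hη))
    refine ⟨2 * (r + n) + 1, fun N hN => (uu_square h0 h1 i0 r (r + n) N (by omega) hN).trans ?_⟩
    have a1 := le_ciSup bdd (N + n + 1)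
    have a2 := hr (r + n) (by omega)
    have a3 := uu_nonneg (D := D) h0 h1 r (r + n : ℕ)
    rw [show N + (r + n) + 1 = r + (N + n + 1) by ring]
    nlinarith
  have hθ1 : θ ≤ 1 := by linarith [h 0, uu_nonneg (D := D) h0 h1 0 (0 : ℕ)]
  have it : ∀ k : ℕ, ∃ r : ℕ, ∀ n : ℕ, r ≤ n → uu D p r n ≤ (1 - θ / 2) * (1 - θ / 4) ^ k := by
    intro k
    induction k with
    | zero => exact ⟨0, fun n _ => by have := h n; push_cast; linarith⟩
    | succ k ih =>
      have a1 : 0 < (1 - θ / 4) ^ k := pow_pos (by linarith) _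
      have a2 : (1 - θ / 4) ^ k ≤ 1 := pow_le_one₀ (by linarith) (by linarith)
      have a3 : 0 < (1 - θ / 2) * (1 - θ / 4) ^ k := mul_pos (by linarith) a1
      obtain ⟨r, hr⟩ := step _ (θ / 4 * ((1 - θ / 2) * (1 - θ / 4) ^ k)) (by positivity) ih
      refine ⟨r, fun n hn => (hr n hn).trans ?_⟩
      have a4 : (1 - θ / 2) * (1 - θ / 4) ^ k ≤ 1 - θ / 2 := by nlinarith
      rw [pow_succ (1 - θ / 4)]
      nlinarith
  obtain ⟨k, hk⟩ := exists_pow_lt_of_lt_one hδ (show 1 - θ / 4 < 1 by linarith)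
  obtain ⟨r, hr⟩ := it k
  refine ⟨r, fun n hn => (hr n hn).trans ?_⟩
  have a1 : 0 < (1 - θ / 4) ^ k := pow_pos (by linarith) _
  nlinarith

def RR {V : Type*} (ω : Finset (Sym2 V)) (W : Set V) (o : V) (T : Set V) : Prop :=
  link (keep ω (ins W)) {o} T

theorem RR.mono {V : Type*} [DecidableEq V] {ω : Finset (Sym2 V)} {W W' : Set V} {o : V}
    {T T' : Set V} (h : RR ω W o T) (h1 : W ⊆ W') (h2 : T ⊆ T') : RR ω W' o T' :=
  link.mono h (keep_mono subset_rfl (ins_mono h1)) subset_rfl h2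

def Sh (D : ℕ) (p : ℝ) (m : ℤ) (ε : ℝ) : Prop :=
  ∀ (F : Finset (Sym2 (Pt D))) (q : Sym2 (Pt D) → ℝ) (o : Pt D) (W : Set (Pt D)) (c c' : Pt D),
    Lat F → P01 q → (∀ i, |c' i - c i| ≤ m) → cube c (10 * m) ⊆ W → Fresh F q p (cube c (10 * m)) →
    o ∉ cube c (10 * m) →
    Ex F q (fun ω => ind (RR ω W o (cube c (4 * m)) ∧ ¬ RR ω W o (cube c' (4 * m)))) ≤ ε

theorem ind_chain {P : ℕ → Prop} (n : ℕ) :
    ind (P 0 ∧ ¬ P n) ≤ ∑ t ∈ range n, ind (P t ∧ ¬ P (t + 1)) := by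
  induction n with
  | zero => simp
  | succ n ih =>
    rw [sum_range_succ]
    refine le_trans ?_ (add_le_add ih le_rfl)
    refine le_trans (ind_mono ?_) (ind_or_le _ _)
    tauto

theorem shift {p : ℝ} (hp0 : 0 ≤ p) (hp1 : p < 1) (i0 : Fin D) (r K M' : ℕ) (m : ℤ) (hK : 0 < K)
    (hrm : r ≤ 2 * m) (hKm : (D + 1 : ℕ) * K ≤ m) {δ : ℝ} (hδ : 0 < δ)
    (ha : aa p i0 r (2 * m) ≤ δ ^ 2) :
    Sh D p m (D * (1 / ((1 - p) ^ (2 * D * ((4 * r + 1) ^ D * M')) * K) +
        (1 - p ^ (EF (cubeF (0 : Pt D) r)).card) ^ M' +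
        M' * p ^ (EF (cubeF (0 : Pt D) r)).card * δ + δ)) := by
  intro F q o W c c' hL hq hc hW hF ho
  set w : ℕ → Pt D := fun t i => if i.val < t then 3 * m + t * K else 5 * m + t * K with hw
  have hKm' : ∀ t : ℕ, t < D → (t : ℤ) * K + 2 * K ≤ m := by
    intro t ht
    have : ((t : ℤ) + 2) * K ≤ (D + 1 : ℕ) * K :=
      mul_le_mul_of_nonneg_right (by push_cast; omega) (by omega)
    linarith
  have htK : ∀ t : ℕ, (0 : ℤ) ≤ t * K := fun t => by positivity
  have hm : 0 ≤ m := by omega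
  have key : ∀ t ∈ range D, Ex F q (fun ω => ind (RR ω W o (box c' (w t)) ∧
      ¬ RR ω W o (box c' (w (t + 1))))) ≤
      1 / ((1 - p) ^ (2 * D * ((4 * r + 1) ^ D * M')) * K) +
        (1 - p ^ (EF (cubeF (0 : Pt D) r)).card) ^ M' +
        M' * p ^ (EF (cubeF (0 : Pt D) r)).card * δ + δ := by
    intro t ht
    have ht' := mem_range.1 ht
    have a0 := hKm' t ht'
    have a1 := htK t
    have hsub : box c' (fun i => w t i + (2 * m + K)) ⊆ cube c (10 * m) := by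
      intro x hx i
      have b1 := hx i
      have b2 := hc i
      simp only [hw] at b1
      rw [abs_le] at *
      split_ifs at b1 <;> omega
    unfold RR
    rw [Ex_keep q (ins W) F (fun ω => ind (link ω {o} (box c' (w t)) ∧
      ¬ link ω {o} (box c' (w (t + 1)))))]
    refine chain0 (hL.mono (keep_subset _ _)) hq hp0 hp1 c' (w t) o
      (fun i => by simp only [hw]; split_ifs <;> omega) r (2 * m) hrm K M' hK hδ _
      (fun h => ho (hsub h)) (fun x hx y hy hxy => ?_) (fun x hx => ?_)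
    · have := hF x (hsub hx) y (hsub hy) hxy
      exact ⟨mem_keep.2 ⟨this.1, mk_mem_ins.2 ⟨hW (hsub hx), hW (hsub hy)⟩⟩, this.2⟩
    · refine le_trans ?_ ha
      rw [← lf_QF p i0 ⟨t, ht'⟩ x (fun k => if x k ≤ c' k then 1 else -1)]
      refine Ex_mono (P01_const hp0 hp1.le) fun ω _ =>
        ind_mono fun h h' => h (h'.mono subset_rfl subset_rfl ?_)
      rintro y ⟨h1, h2⟩ k
      have b1 := hx k
      have b2 := h2 k
      simp only [hw] at b1 b2 h1 ⊢
      have e : ((t + 1 : ℕ) : ℤ) * K = t * K + K := by push_cast; ring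
      rw [e]
      by_cases hk : k.val = t
      · obtain rfl : k = ⟨t, ht'⟩ := Fin.ext hk
        rw [if_pos (by simp)]
        rw [if_neg (by simp)] at b1
        rw [abs_le] at *
        split_ifs at h1 <;> simp at h1 <;> omega
      · rw [abs_le] at *
        split_ifs at b1 b2 ⊢ <;> simp at b2 <;> omega
  refine le_trans (Ex_mono hq (g := fun ω => ∑ t ∈ range D, ind (RR ω W o (box c' (w t)) ∧
      ¬ RR ω W o (box c' (w (t + 1))))) fun ω _ => ?_) ?_
  · refine le_trans (ind_mono fun h => ⟨h.1.mono subset_rfl ?_, fun h' => h.2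
      (h'.mono subset_rfl ?_)⟩) (ind_chain (P := fun t => RR ω W o (box c' (w t))) D)
    · intro x hx i
      have b1 := hx i
      have b2 := hc i
      simp only [hw]
      rw [abs_le] at *
      simp; omega
    · intro x hx i
      have b1 := hx i
      simp only [hw, i.isLt, if_true] at b1
      have : (D : ℤ) * K ≤ (D + 1 : ℕ) * K :=
        mul_le_mul_of_nonneg_right (by push_cast; omega) (by omega)
      omega
  · rw [Ex_sum]
    refine (sum_le_sum key).trans (le_of_eq ?_)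
    rw [sum_const, card_range, nsmul_eq_mul]

theorem aa_continuous (i0 : Fin D) (r n : ℤ) : Continuous fun p : ℝ => aa p i0 r n :=
  Ex_continuous _ (fun (p : ℝ) _ => p) (fun _ => continuous_id) _

theorem exists_shift {p0 θ : ℝ} (h0 : 0 < p0) (h1 : p0 < 1) (i0 : Fin D) (hθ : 0 < θ)
    (h : ∀ n : ℕ, uu D p0 0 n ≤ 1 - θ) {ε : ℝ} (hε : 0 < ε) (hε1 : ε ≤ 1) :
    ∃ m r : ℕ, r < m ∧ ∃ p, 0 < p ∧ p < p0 ∧ Sh D p m ε ∧ aa p i0 r (7 * m) ≤ ε := by
  set G := Fintype.card (Fin D × (Fin D → ℤˣ)) with hG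
  have hG0 : 0 < G := Fintype.card_pos_iff.2 ⟨(i0, 1)⟩
  have hG1 : (0 : ℝ) < G := by exact_mod_cast hG0
  have hD : (0 : ℝ) < D := by exact_mod_cast i0.pos
  set ε2 := ε / D / 4 with hε2
  have hε2p : 0 < ε2 := by positivity
  set l : ℝ := 1 / ε2 with hl
  have hlp : 0 < l := by positivity
  set δ := ε2 / (l + 1) with hδ
  have hδp : 0 < δ := by positivity
  obtain ⟨r, hr⟩ := seeds h0.le h1.le i0 hθ h (δ := (δ ^ 2 / 2) ^ G) (by positivity)
  set k := (EF (cubeF (0 : Pt D) r)).card with hk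
  obtain ⟨M0, hM0⟩ := exists_nat_ge (l / (p0 / 2) ^ k + 1)
  obtain ⟨K, hK⟩ := exists_nat_gt (1 / ((1 - p0) ^ (2 * D * ((4 * r + 1) ^ D * M0)) * ε2))
  have hc0 : 0 < (1 - p0) ^ (2 * D * ((4 * r + 1) ^ D * M0)) := pow_pos (by linarith) _
  have hK0 : (0 : ℝ) < K := lt_trans (by positivity) hK
  have hK0' : 0 < K := by exact_mod_cast hK0
  set m := (D + 1) * K + r with hm
  have hm0 : 0 < m := by positivity
  have a1 : aa p0 i0 r (2 * m) < δ ^ 2 := by
    have := (sqrt_trick h0.le h1.le i0 r (2 * m : ℕ)).trans (hr (2 * m) (by omega))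
    have := le_of_pow_le_pow_left₀ hG0.ne' (by positivity) this
    push_cast at this
    have : 0 < δ ^ 2 := by positivity
    linarith
  have a2 : aa p0 i0 r (7 * m) < δ ^ 2 := by
    have := (sqrt_trick h0.le h1.le i0 r (7 * m : ℕ)).trans (hr (7 * m) (by omega))
    have := le_of_pow_le_pow_left₀ hG0.ne' (by positivity) this
    push_cast at this
    have : 0 < δ ^ 2 := by positivity
    linarith
  have a3 : δ ^ 2 ≤ ε := by
    have d4 : δ ≤ ε2 := div_le_self hε2p.le (by linarith)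
    have hD1 : (1 : ℝ) ≤ D := by exact_mod_cast i0.pos
    have d6 : ε / D ≤ ε := div_le_self hε.le hD1
    have d7 : δ ≤ ε := by linarith [div_pos hε hD]
    nlinarith
  have ev : ∀ᶠ p in nhds p0, aa p i0 r (2 * m) < δ ^ 2 ∧ aa p i0 r (7 * m) < δ ^ 2 ∧
      p0 / 2 < p :=
    ((aa_continuous i0 r _).tendsto p0 |>.eventually_lt_const a1).and
      (((aa_continuous i0 r _).tendsto p0 |>.eventually_lt_const a2).and
        (eventually_gt_nhds (by linarith)))
  obtain ⟨p, ⟨b1, b2, b3⟩, b4⟩ :=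
    ((ev.filter_mono (nhdsWithin_le_nhds (s := Set.Iio p0))).and self_mem_nhdsWithin).exists
  have b4 : p < p0 := b4
  have hp : 0 < p := by linarith
  have hη : 0 < p ^ k := pow_pos hp _
  have hη1 : p ^ k ≤ 1 := pow_le_one₀ hp.le (by linarith)
  set M' := ⌈l / p ^ k⌉₊ with hM'
  have c1 : l ≤ M' * p ^ k := by rw [← div_le_iff₀ hη]; exact Nat.le_ceil _
  have c2 : (M' : ℝ) < l / p ^ k + 1 := Nat.ceil_lt_add_one (by positivity)
  have c3 : M' * p ^ k ≤ l + 1 := by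
    have := mul_le_mul_of_nonneg_right c2.le hη.le
    rw [add_mul, div_mul_cancel₀ _ hη.ne'] at this
    linarith
  have c4 : M' ≤ M0 := by
    have : l / p ^ k ≤ l / (p0 / 2) ^ k :=
      div_le_div_of_nonneg_left hlp.le (by positivity) (pow_le_pow_left₀ (by linarith) b3.le _)
    exact_mod_cast (show (M' : ℝ) ≤ M0 by linarith)
  refine ⟨m, r, by have : 0 < (D + 1) * K := by positivity
                   omega, p, hp, b4, ?_, b2.le.trans a3⟩
  have sh := shift hp.le (by linarith) i0 r K M' m hK0' (by omega) (by omega) hδp b1.le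
  intro F q o W c c' x1 x2 x3 x4 x5 x6
  refine (sh F q o W c c' x1 x2 x3 x4 x5 x6).trans ?_
  have d1 : 1 / ((1 - p) ^ (2 * D * ((4 * r + 1) ^ D * M')) * K) ≤ ε2 := by
    have e1 : (1 - p0) ^ (2 * D * ((4 * r + 1) ^ D * M0)) ≤
        (1 - p) ^ (2 * D * ((4 * r + 1) ^ D * M')) :=
      (pow_le_pow_of_le_one (by linarith) (by linarith)
        (Nat.mul_le_mul_left _ (Nat.mul_le_mul_left _ c4))).trans
        (pow_le_pow_left₀ (by linarith) (by linarith) _)
    rw [div_lt_iff₀ (by positivity)] at hK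
    rw [div_le_iff₀ (mul_pos (hc0.trans_le e1) hK0)]
    have := mul_le_mul_of_nonneg_left e1 (mul_pos hK0 hε2p).le
    nlinarith
  have d2 : (1 - p ^ k) ^ M' ≤ ε2 := by
    have e1 : (1 - p ^ k) ^ M' ≤ Real.exp (- p ^ k) ^ M' :=
      pow_le_pow_left₀ (by linarith) (by linarith [Real.add_one_le_exp (- p ^ k)]) _
    rw [← Real.exp_nat_mul] at e1
    have e2 : Real.exp (M' * - p ^ k) ≤ Real.exp (- l) := Real.exp_le_exp.2 (by linarith)
    have e3 : Real.exp (- l) ≤ ε2 := by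
      rw [Real.exp_neg, inv_le_comm₀ (Real.exp_pos _) hε2p, ← one_div, ← hl]
      linarith [Real.add_one_le_exp l]
    linarith
  have d3 : M' * p ^ k * δ ≤ ε2 := by
    have := mul_le_mul_of_nonneg_right c3 hδp.le
    rw [hδ, mul_div_cancel₀ _ (by positivity)] at this
    exact this
  have d4 : δ ≤ ε2 := div_le_self hε2p.le (by linarith)
  have : ε = D * (4 * ε2) := by rw [hε2]; field_simp
  rw [this]
  exact mul_le_mul_of_nonneg_left (by linarith) hD.le

end Vale.Agent.P151
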